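import Vale.Agent.P338.Duel.Defs1

/-! Bounded tapes. -/

namespace Vale.Agent.P338.TM

open Vale.Agent.P338

variable {ι Γ : Type} [TapeAlpha Γ]

theorem BddT.mono {E E' : ℕ} {t : Tp Γ} (h : BddT E t) (hE : E ≤ E') : BddT E' t :=
  ⟨h.1.trans hE, fun j hj => h.2 j (hE.trans hj)⟩

theorem BddS.mono {E E' : ℕ} {s : St ι Γ} (h : BddS E s) (hE : E ≤ E') : BddS E' s :=
  fun i => (h i).mono hE

/-- One action enlarges the bound by at most one. -/
theorem bddT_act {E : ℕ} {t : Tp Γ} (h : BddT E t) (w : Γ) (m : Move) : BddT (E + 1) (t.act w m) := by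
  obtain ⟨h1, h2⟩ := h
  refine ⟨?_, ?_⟩
  · show m.apply t.head ≤ E + 1
    cases m <;> simp only [Move.apply] <;> omega
  · intro j hj
    show Function.update t.cells t.head w j = blank
    rw [Function.update_of_ne (by omega)]
    exact h2 j (by omega)

/-- `t` steps enlarge the bound by at most `t`. -/
theorem bdd_reach (P : Prog ι Γ) {t : ℕ} {x y : P.Q × Conf ι Γ} (h : P.Reach t x y) (E : ℕ)
    (hx : ∀ i, BddT E (x.2 i)) : ∀ i, BddT (E + t) (y.2 i) := by
  induction h generalizing E with
  | zero x => simpa using hx
  | @succ t x y z hs _ ih =>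
    have hy : ∀ i, BddT (E + 1) (y.2 i) := by
      intro i
      unfold Prog.step at hs
      cases hδ : P.δ x.1 (reads x.2) with
      | none => rw [hδ] at hs; simp at hs
      | some r =>
        rw [hδ] at hs
        simp only [Option.map_some, Option.some.injEq] at hs
        rw [← hs]
        exact bddT_act (hx i) _ _
    have := ih (E + 1) hy
    intro i
    have h2 := this i
    have e : E + 1 + t = E + (t + 1) := by omega
    rw [e] at h2
    exact h2

/-- A bounded tape is described by a zipper. -/
theorem exists_zip_of_bddT {E : ℕ} {t : Tp Γ} (h : BddT E t) : ∃ z : Zip Γ, z.toTp = t := by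
  obtain ⟨h1, h2⟩ := h
  refine ⟨⟨((List.range t.head).map t.cells).reverse,
    (List.range (E - t.head)).map fun j => t.cells (t.head + j)⟩, ?_⟩
  unfold Zip.toTp
  obtain ⟨cells, head⟩ := t
  simp only at h1 h2 ⊢
  congr 1
  · funext j
    rw [List.reverse_reverse]
    by_cases hj : j < head
    · rw [List.getD_append _ _ _ _ (by simpa using hj)]
      rw [List.getD_eq_getElem _ _ (by simpa using hj)]
      simp
    · rw [List.getD_append_right _ _ _ _ (by simpa using hj)]
      simp only [List.length_map, List.length_range]
      by_cases hj2 : j - head < E - head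
      · rw [List.getD_eq_getElem _ _ (by simpa using hj2)]
        simp only [List.getElem_map, List.getElem_range]
        congr 1
        omega
      · rw [List.getD_eq_default _ _ (by simpa using hj2)]
        exact (h2 j (by omega)).symm
  · simp

/-- Bounded tapes are described by an abstract state. -/
theorem exists_st_of_bdd {E : ℕ} {c : Conf ι Γ} (h : ∀ i, BddT E (c i)) :
    ∃ s : St ι Γ, conc s = c ∧ BddS E s := by
  choose z hz using fun i => exists_zip_of_bddT (h i)
  refine ⟨z, funext hz, fun i => ?_⟩
  rw [hz i]
  exact h i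

theorem bddT_Z (d t : List Γ) (E : ℕ) (h : d.length + t.length + 1 ≤ E) : BddT E (Z d t).toTp := by
  refine ⟨?_, ?_⟩
  · simp only [Z, Zip.toTp, List.length_append, List.length_reverse, List.length_cons,
      List.length_nil]
    omega
  · intro j hj
    simp only [Z, Zip.toTp]
    apply List.getD_eq_default
    simp only [List.length_append, List.length_reverse, List.length_cons, List.length_nil]
    omega

theorem bddT_nil (E : ℕ) : BddT E (⟨[], []⟩ : Zip Γ).toTp := by
  refine ⟨by simp [Zip.toTp], ?_⟩
  intro j _
  simp [Zip.toTp]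

end Vale.Agent.P338.TM
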