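import Vale.Agent.P338.Duel.PassSpec
import Vale.Agent.P338.TM.SpecSetUn

/-!
The classical implementation of an operation.  `te := 2^σ`, `d4 := lo + up - 1`,
`ta := 2^(lo+up-1)` (`pow2_spec`, `appendAll_spec`, `rewind_spec`; after
`mv d4 left`, `wr d4 blank stay` use `Prog.SRuns.congr_right` with `Zip.toTp_trim` to drop the
trailing blanks), then `up` rounds of `pass` (`forU_fun`, `pass_spec`, `opList_length'`), finally
`opList_iter`.
-/

namespace Vale.Agent.P338.TM

open Vale.Agent.P338

variable {Γ : Type} [TapeAlpha Γ]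

theorem iter_opList_length (σ l T : ℕ) (hT : σ ≤ T) (D : List Bool) (hD : D.length = 2 ^ T)
    (k : ℕ) : ((fun D => opList σ l 1 D)^[k] D).length = 2 ^ T := by
  induction k with
  | zero => simpa using hD
  | succ k ih =>
    rw [Function.iterate_succ_apply']
    exact opList_length' σ l 1 T hT _ ih

theorem classOp_spec (s : St Own Γ) (σ lo up T : ℕ) (hlo : 1 ≤ lo) (hup : 1 ≤ up)
    (hT : σ + lo + up ≤ T) (D : List Bool) (hD : D.length = 2 ^ T)
    (h1 : s Own.d1 = Z [] (un σ)) (h2 : s Own.d2 = Z [] (un lo)) (h3 : s Own.d3 = Z [] (un up))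
    (hX : s Own.X = Z [] (bits D))
    (hE : ∀ x ∈ [Own.te, Own.ta, Own.d4, Own.d5, Own.Y, Own.W], s x = Z [] []) :
    ∃ s' : St Own Γ, (classOp : Prog Own Γ).SRuns s (cClass up T) s' true ∧
      s' Own.X = Z [] (bits (opList σ lo up D)) := by
  have ete : s Own.te = Z [] [] := hE _ (by simp)
  have eta : s Own.ta = Z [] [] := hE _ (by simp)
  have ed4 : s Own.d4 = Z [] [] := hE _ (by simp)
  have ed5 : s Own.d5 = Z [] [] := hE _ (by simp)
  have eY : s Own.Y = Z [] [] := hE _ (by simp)
  have eW : s Own.W = Z [] [] := hE _ (by simp)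
  obtain ⟨l, hl⟩ : ∃ l, lo + up = l + 1 := ⟨lo + up - 1, by omega⟩
  have hl' : lo + up - 1 = l := by omega
  -- the states
  obtain ⟨s1, hs1⟩ : ∃ t, t = Function.update s Own.te (Z [] (un (2 ^ σ))) := ⟨_, rfl⟩
  obtain ⟨s2, hs2⟩ : ∃ t, t = Function.update (Function.update s1 Own.d2 (Z (un lo) []))
    Own.d4 (Z (un lo) []) := ⟨_, rfl⟩
  obtain ⟨s3, hs3⟩ : ∃ t, t = Function.update (Function.update s2 Own.d3 (Z (un up) []))
    Own.d4 (Z (un l ++ [bit true]) []) := ⟨_, rfl⟩
  obtain ⟨s4, hs4⟩ : ∃ t, t = Function.update s3 Own.d2 (Z [] (un lo)) := ⟨_, rfl⟩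
  obtain ⟨s5, hs5⟩ : ∃ t, t = Function.update s4 Own.d3 (Z [] (un up)) := ⟨_, rfl⟩
  obtain ⟨s6, hs6⟩ : ∃ t, t = Function.update s5 Own.d4 (Z (un l) [bit true, blank]) := ⟨_, rfl⟩
  obtain ⟨s7, hs7⟩ : ∃ t, t = Function.update s6 Own.d4 (Z (un l) []) := ⟨_, rfl⟩
  obtain ⟨s8, hs8⟩ : ∃ t, t = Function.update s7 Own.d4 (Z [] (un l)) := ⟨_, rfl⟩
  obtain ⟨s9, hs9⟩ : ∃ t, t = Function.update s8 Own.ta (Z [] (un (2 ^ l))) := ⟨_, rfl⟩
  -- the steps
  have r1 : (pow2 Own.d1 Own.te Own.d5).SRuns s (6 * 2 ^ σ + 21 * σ + 10) s1 true := by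
    rw [hs1]
    exact pow2_spec Own.d1 Own.te Own.d5 (by decide) (by decide) (by decide) s σ h1 ete ed5
  have r2 : (appendAll Own.d2 Own.d4).SRuns s1 lo s2 true := by
    have h := appendAll_spec Own.d2 Own.d4 (by decide) s1 [] (un lo) [] (blank_notMem_un lo)
      (by simp [hs1, h2]) (by simp [hs1, ed4])
    rw [un_length] at h
    simpa [hs2] using h
  have r3 : (appendAll Own.d3 Own.d4).SRuns s2 up s3 true := by
    have h := appendAll_spec Own.d3 Own.d4 (by decide) s2 [] (un up) (un lo) (blank_notMem_un up)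
      (by simp [hs2, hs1, h3]) (by simp [hs2])
    rw [un_length, un_append, hl, un_succ'] at h
    simpa [hs3] using h
  have r4 : (rewind Own.d2).SRuns s3 (lo + 3) s4 true := by
    have h := rewind_spec Own.d2 s3 (un lo) [] (by simp [hs3, hs2]) (lend_notMem_un lo) (by simp)
    rw [un_length, List.append_nil] at h
    rw [hs4]
    exact h
  have r5 : (rewind Own.d3).SRuns s4 (up + 3) s5 true := by
    have h := rewind_spec Own.d3 s4 (un up) [] (by simp [hs4, hs3]) (lend_notMem_un up) (by simp)
    rw [un_length, List.append_nil] at h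
    rw [hs5]
    exact h
  have r6 : (mv Own.d4 Move.left).SRuns s5 1 s6 true := by
    have h := prim_sruns (fun a => (Instr.nil : Instr Own Γ).set Own.d4 (a Own.d4) Move.left) s5
    have e : s5 Own.d4 = Z (un l ++ [bit true]) [] := by simp [hs5, hs4, hs3]
    rw [Instr.sapp_set, Instr.sapp_nil, sreads_apply, e, Z_act_left_snoc] at h
    rw [hs6]
    exact h
  have r7 : (wr Own.d4 blank Move.stay).SRuns s6 1 s7 true := by
    have h := wr_stay_spec Own.d4 blank s6 (un l) [bit true, blank] (by simp [hs6])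
    refine Prog.SRuns.congr_right h ?_
    intro i
    by_cases hi : i = Own.d4
    · subst hi
      rw [hs7, Function.update_self, Function.update_self]
      exact Zip.toTp_trim _ [] 2
    · rw [hs7, Function.update_of_ne hi, Function.update_of_ne hi]
  have r8 : (rewind Own.d4).SRuns s7 (l + 3) s8 true := by
    have h := rewind_spec Own.d4 s7 (un l) [] (by simp [hs7]) (lend_notMem_un l) (by simp)
    rw [un_length, List.append_nil] at h
    rw [hs8]
    exact h
  have r9 : (pow2 Own.d4 Own.ta Own.d5).SRuns s8 (6 * 2 ^ l + 21 * l + 10) s9 true := by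
    rw [hs9]
    exact pow2_spec Own.d4 Own.ta Own.d5 (by decide) (by decide) (by decide) s8 l
      (by simp [hs8]) (by simp [hs8, hs7, hs6, hs5, hs4, hs3, hs2, hs1, eta])
      (by simp [hs8, hs7, hs6, hs5, hs4, hs3, hs2, hs1, ed5])
  have e9d3 : s9 Own.d3 = Z [] (un up) := by simp [hs9, hs8, hs7, hs6, hs5]
  have r10 : (forU Own.d3 (pass : Prog Own Γ)).SRuns s9 (up * (cPass T + 6) + 6)
      (Function.update s9 Own.X (Z [] (bits ((fun D => opList σ l 1 D)^[up] D)))) true := by
    have h := forU_fun Own.d3 (pass : Prog Own Γ) up (cPass T)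
      (fun k => Function.update s9 Own.X (Z [] (bits ((fun D => opList σ l 1 D)^[k] D)))) (by
        intro k _
        refine ⟨true, ?_⟩
        have h := pass_spec
          (Function.update (Function.update s9 Own.X
            (Z [] (bits ((fun D => opList σ l 1 D)^[k] D)))) Own.d3 (Z (un k) (un (up - k))))
          σ l T (by omega) ((fun D => opList σ l 1 D)^[k] D)
          (iter_opList_length σ l T (by omega) D hD k)
          (by simp [hs9]) (by simp [hs9, hs8, hs7, hs6, hs5, hs4, hs3, hs2, hs1])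
          (by simp) (by simp [hs9, hs8, hs7, hs6, hs5, hs4, hs3, hs2, hs1, eY])
          (by simp [hs9, hs8, hs7, hs6, hs5, hs4, hs3, hs2, hs1, eW])
        rw [Function.update_comm (by decide : Own.d3 ≠ Own.X), Function.update_idem] at h
        rw [Function.iterate_succ_apply']
        exact h)
    have e0 : Function.update (Function.update s9 Own.X
        (Z [] (bits ((fun D => opList σ l 1 D)^[0] D)))) Own.d3 (Z [] (un up)) = s9 := by
      rw [Function.iterate_zero, id_eq]
      funext i
      by_cases hi : i = Own.d3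
      · subst hi
        rw [Function.update_self, e9d3]
      · rw [Function.update_of_ne hi]
        by_cases hi2 : i = Own.X
        · subst hi2
          rw [Function.update_self]
          simp [hs9, hs8, hs7, hs6, hs5, hs4, hs3, hs2, hs1, hX]
        · rw [Function.update_of_ne hi2]
    have e1 : Function.update (Function.update s9 Own.X
        (Z [] (bits ((fun D => opList σ l 1 D)^[up] D)))) Own.d3 (Z [] (un up))
        = Function.update s9 Own.X (Z [] (bits ((fun D => opList σ l 1 D)^[up] D))) :=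
      update_update_self_of s9 Own.X Own.d3 (by decide) _ _ e9d3
    rw [e0, e1] at h
    exact h
  have hall := seqs_cons r1 (seqs_cons r2 (seqs_cons r3 (seqs_cons r4 (seqs_cons r5 (seqs_cons r6
    (seqs_cons r7 (seqs_cons r8 (seqs_cons r9 (seqs_cons r10 (seqs_nil _))))))))))
  refine ⟨_, Prog.SRuns.mono hall ?_, ?_⟩
  · unfold cClass cPass
    have p1 : 2 ^ σ ≤ 2 ^ T := Nat.pow_le_pow_right (by norm_num) (by omega)
    have p2 : 2 ^ l ≤ 2 ^ T := Nat.pow_le_pow_right (by norm_num) (by omega)
    have p3 : T < 2 ^ T := Nat.lt_two_pow_self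
    have e : 300 * ((up + 1) * 2 ^ T) = 300 * (up * 2 ^ T) + 300 * 2 ^ T := by ring
    have e2 : up * (100 * 2 ^ T + 100 + 6) = 100 * (up * 2 ^ T) + 106 * up := by ring
    have p4 : up ≤ up * 2 ^ T := Nat.le_mul_of_pos_right _ (by positivity)
    rw [e, e2]
    generalize up * 2 ^ T = Y at *
    omega
  · rw [Function.update_self]
    have := opList_iter σ lo up T hlo hT D hD
    rw [hl'] at this
    rw [this]

end Vale.Agent.P338.TM
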