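import Vale.Agent.P338.TM.Progs6

/-!
Second machine, generic part (definitions only): programs on a sum of tape families, two programs
running side by side, bounded tapes, wiping a family of tapes, fan-out copies.
-/

namespace Vale.Agent.P338.TM

open Vale.Agent.P338
open Classical

noncomputable section

variable {ι ι₀ ι₁ ι₂ ιs Γ : Type}

/-- A program on the left family of tapes, as a program on all tapes. -/
def liftL (P : Prog ι₁ Γ) : Prog (ι₁ ⊕ ι₂) Γ where
  Q := P.Q
  start := P.start
  δ := fun q a => (P.δ q fun x => a (Sum.inl x)).map fun r =>
    (r.1, Sum.elim r.2.1 (fun i => a (Sum.inr i)), Sum.elim r.2.2 (fun _ => Move.stay))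
  lab := P.lab

/-- A program on the right family of tapes, as a program on all tapes. -/
def liftR (P : Prog ι₂ Γ) : Prog (ι₁ ⊕ ι₂) Γ where
  Q := P.Q
  start := P.start
  δ := fun q a => (P.δ q fun x => a (Sum.inr x)).map fun r =>
    (r.1, Sum.elim (fun i => a (Sum.inl i)) r.2.1, Sum.elim (fun _ => Move.stay) r.2.2)
  lab := P.lab

variable [TapeAlpha Γ]

/-- `P` (on the tapes `ι₁`) and `R` (on the tapes `ι₂`) run side by side: every step of the
combined program is one step of `P` and one step of `R`, and puts one mark on the clock tape `clk`
(head moving right).  As soon as one of the two has stopped, one idle step leads to a final state.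
Exit label `true`: `P` has stopped (not later than `R`); `false`: `R` has stopped first. -/
def par [DecidableEq ι₀] (P : Prog ι₁ Γ) (R : Prog ι₂ Γ) (clk : ι₀) :
    Prog (ι₀ ⊕ (ι₁ ⊕ ι₂)) Γ where
  Q := (P.Q × R.Q) ⊕ Bool
  start := Sum.inl (P.start, R.start)
  δ := fun q a => match q with
    | Sum.inl (q1, q2) =>
      (match P.δ q1 (fun i => a (Sum.inr (Sum.inl i))),
          R.δ q2 (fun j => a (Sum.inr (Sum.inr j))) with
        | none, _ => some (Sum.inr true, a, fun _ => Move.stay)
        | some _, none => some (Sum.inr false, a, fun _ => Move.stay)
        | some r1, some r2 => some (Sum.inl (r1.1, r2.1),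
            Sum.elim (fun x => if x = clk then bit true else a (Sum.inl x))
              (Sum.elim r1.2.1 r2.2.1),
            Sum.elim (fun x => if x = clk then Move.right else Move.stay)
              (Sum.elim r1.2.2 r2.2.2)))
    | Sum.inr _ => none
  lab := fun q => match q with
    | Sum.inl _ => false
    | Sum.inr b => b

/-- The head is on one of the cells `0, ..., E` and all cells from `E` on are blank. -/
def BddT (E : ℕ) (t : Tp Γ) : Prop := t.head ≤ E ∧ ∀ j, E ≤ j → t.cells j = blank

/-- All tapes of an abstract state are bounded by `E`. -/
def BddS (E : ℕ) (s : St ι Γ) : Prop := ∀ i, BddT E (s i).toTp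

/-- The instruction that acts on all tapes of the right family and on the clock tape. -/
def allS [DecidableEq ι₀] (clk : ι₀) (wS : ιs → Γ → Γ) (mS : ιs → Move) (wc : Γ → Γ) (mc : Move)
    (a : ι₀ ⊕ ιs → Γ) : Instr (ι₀ ⊕ ιs) Γ := fun i =>
  match i with
  | Sum.inl x => if x = clk then some (wc (a (Sum.inl clk)), mc) else none
  | Sum.inr j => some (wS j (a (Sum.inr j)), mS j)

/-- Reset all tapes of the right family.  Before: the clock tape holds `E` marks, its head is
behind them, and the tapes of the right family are bounded by `E`.  After: the clock tape is empty,
a tape `j` with `mk j = true` is the empty standard tape (left end mark, head behind it), the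
other ones are completely blank with the head on the leftmost cell. -/
def wipe [DecidableEq ι₀] (clk : ι₀) (mk : ιs → Bool) : Prog (ι₀ ⊕ ιs) Γ :=
  seq (scan fun a => if a (Sum.inl clk) = lend then none else
    some (allS clk (fun _ y => y) (fun _ => Move.left) id Move.left a))
  (seq (prim fun a => allS clk (fun j _ => if mk j then lend else blank) (fun _ => Move.right)
    id Move.right a)
  (seq (scan fun a => if a (Sum.inl clk) = blank then none else
    some (allS clk (fun _ _ => blank) (fun _ => Move.right) id Move.right a))
  (seq (scan fun a => if a (Sum.inl clk) = lend then none else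
    some (allS clk (fun _ y => y) (fun _ => Move.left) (fun _ => blank) Move.left a))
  (prim fun a => allS clk (fun _ y => y) (fun j => if mk j then Move.right else Move.stay)
    id Move.right a))))

/-- The state of the right family after `wipe`. -/
def wiped (mk : ιs → Bool) : St ιs Γ := fun j => if mk j then Z [] [] else ⟨[], []⟩

variable [DecidableEq ι]

/-- Copy the rest of tape `x` to `y` and to `z`, then rewind the three tapes. -/
def fan (x y z : ι) : Prog ι Γ :=
  seq (scan fun a => if a x = blank then none else
    some (((Instr.nil.set x (a x) Move.right).set y (a x) Move.right).set z (a x) Move.right))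
  (seq (rewind x) (seq (rewind y) (rewind z)))

/-- The same with one mark on the clock tape `c` for every cell. -/
def fanC (x y z c : ι) : Prog ι Γ :=
  seq (scan fun a => if a x = blank then none else
    some ((((Instr.nil.set x (a x) Move.right).set y (a x) Move.right).set z (a x) Move.right).set
      c (bit true) Move.right))
  (seq (rewind x) (seq (rewind y) (rewind z)))

end

end Vale.Agent.P338.TM
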