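import Vale.Agent.P338.Duel.Defs1

/-!
Second machine (definitions only): the classical implementation of an operation by perfect
shuffles, the duel between the two implementations, the interpreter and the main program.
-/

namespace Vale.Agent.P338.TM

open Vale.Agent.P338
open Classical

noncomputable section

section classical

variable {Γ : Type} [TapeAlpha Γ]

/-- One group of `2 * h` entries of `e` bits (`ta = h`, `te = e`, unary): the first half goes to
`W`, then the entries of the two halves are written to `Y` alternately. -/
def passGroup : Prog Own Γ :=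
  seqs [forU Own.ta (cpU Own.te Own.X Own.W), rewind Own.W,
    forU Own.ta (seq (cpU Own.te Own.W Own.Y) (cpU Own.te Own.X Own.Y)), erase Own.W]

/-- One perfect shuffle of every group of the data on `X`. -/
def pass : Prog Own Γ :=
  seqs [while_ (notSym Own.X blank) passGroup, rewind Own.X, rewind Own.Y,
    copyOver Own.Y Own.X, erase Own.Y]

/-- The operation `(σ, lo, up) = (d1, d2, d3)` on the data on `X` by `up` perfect shuffles. -/
def classOp : Prog Own Γ :=
  seqs [pow2 Own.d1 Own.te Own.d5, appendAll Own.d2 Own.d4, appendAll Own.d3 Own.d4,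
    rewind Own.d2, rewind Own.d3, mv Own.d4 Move.left, wr Own.d4 blank Move.stay, rewind Own.d4,
    pow2 Own.d4 Own.ta Own.d5, forU Own.d3 pass]

end classical

def cPass (T : ℕ) : ℕ := 100 * 2 ^ T + 100

def cClass (up T : ℕ) : ℕ := 300 * ((up + 1) * 2 ^ T) + 1000

variable {k : ℕ}

/-- The tapes of the second machine: the main work tapes, the tapes of the implementation that
uses the multiplier, the tapes of the classical implementation. -/
abbrev T2 (k : ℕ) : Type := Own ⊕ ((Fin k ⊕ Own) ⊕ Own)

/-- A main tape. -/
abbrev pT (x : Own) : T2 k := Sum.inl x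

/-- A work tape of the implementation that uses the multiplier. -/
abbrev aT (x : Own) : T2 k := Sum.inr (Sum.inl (Sum.inr x))

/-- A work tape of the classical implementation. -/
abbrev cT (x : Own) : T2 k := Sum.inr (Sum.inr x)

/-- The side tapes with a left end mark: all except the tapes of the multiplier. -/
def mkT : (Fin k ⊕ Own) ⊕ Own → Bool
  | Sum.inl (Sum.inl _) => false
  | _ => true

variable [NeZero k]

/-- Give both implementations the data, the exponents; the clock gets `length + 1` marks. -/
def load (A : Machine k) : Prog (T2 k) (GA A) :=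
  seqs [wr (pT Own.clk) (bit true) Move.right,
    fanC (pT Own.X) (aT Own.X) (cT Own.X) (pT Own.clk),
    fan (pT Own.d1) (aT Own.d1) (cT Own.d1), fan (pT Own.d2) (aT Own.d2) (cT Own.d2),
    fan (pT Own.d3) (aT Own.d3) (cT Own.d3)]

/-- One operation: both implementations run side by side, the result of the faster one is taken,
all side tapes are reset. -/
def duel (A : Machine k) : Prog (T2 k) (GA A) :=
  seqs [load A,
    ite (par (opStep A) classOp Own.clk) (copyOver (aT Own.X) (pT Own.X))
      (copyOver (cT Own.X) (pT Own.X)),
    wipe Own.clk mkT]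

/-- Execute the schedule. -/
def interpD (A : Machine k) : Prog (T2 k) (GA A) :=
  while_ (liftL (notSym Own.d7 blank))
    (seqs [liftL (seqs [readField Own.d1, readField Own.d2, readField Own.d3]),
      ite (liftL (isSym Own.d2 (bit true)))
        (ite (liftL (isSym Own.d3 (bit true))) (duel A) skip) skip,
      liftL (seqs [erase Own.d1, erase Own.d2, erase Own.d3])])

/-- Write the left end marks of the side tapes. -/
def initSides (A : Machine k) : Prog (T2 k) (GA A) :=
  prim fun _ i => match i with
    | Sum.inl _ => none
    | Sum.inr j => if mkT j then some (lend, Move.right) else none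

/-- The second transposition program (all sizes). -/
def mainD (A : Machine k) : Prog (T2 k) (GA A) :=
  seqs [liftL (seqs [initAll, parse, ceilLog, padX, clearAux, genAll]), initSides A, interpD A,
    liftL (seqs [ceilLog, outputCrop])]

omit [NeZero k]

def cDuel (tA : ℕ → ℕ) (κ2 : ℕ) (op : Op) : ℕ :=
  100 * 2 ^ κ2
    + 10 * min (cOpStep tA op.1 op.2.1 op.2.2 (2 ^ (κ2 - op.1 - op.2.1 - op.2.2)))
        (cClass op.2.2 κ2)
    + 1000

def cInterpD (tA : ℕ → ℕ) (κ2 : ℕ) (l : List Op) : ℕ :=
  (l.map fun op => cDuel tA κ2 op + 10 * (op.1 + op.2.1 + op.2.2) + 60).sum + 2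

def cMainD (tA : ℕ → ℕ) (n : ℕ) : ℕ :=
  cInterpD tA (2 * clog n) (sched (clog n)) + 300 * (2 ^ clog n * 2 ^ clog n) + 5000 * (clog n + 1)
    + 2000

end

end Vale.Agent.P338.TM
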