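import Vale.Agent.P338.Duel.Defs2

/-! Second machine: auxiliary definitions for the specifications. -/

namespace Vale.Agent.P338.TM

open Vale.Agent.P338

/-- The perfect shuffle of a group of `2 * h` entries of `e` bits. -/
def shuf (e h : ℕ) (G : List Bool) : List Bool :=
  cat (fun c => slices e G c ++ slices e G (h + c)) 0 h

/-- The work tapes of an implementation at the start of an operation. -/
def sideSt {Γ : Type} [TapeAlpha Γ] (σ lo up : ℕ) (D : List Bool) : St Own Γ :=
  Function.update (Function.update (Function.update (Function.update (fun _ => Z [] [])
    Own.X (Z [] (bits D))) Own.d1 (Z [] (un σ))) Own.d2 (Z [] (un lo))) Own.d3 (Z [] (un up))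

end Vale.Agent.P338.TM
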