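import Vale.Agent.P338.Duel.Bdd

/-!
Two programs side by side.

Sketch.  `h1` gives an exact time `t1 ≤ T1` with `P.Exec (conc s1) t1 (conc s1') b1`, `h2` an exact
time `t2 ≤ T2`.  Let `t = min t1 t2`.  The first `t` steps of each run is a `Reach`
(split lemma: `Reach (a + b) x z → ∃ y, Reach a x y ∧ Reach b y z`), and before its last
configuration a run has `step ≠ none`, i.e. `δ ≠ none`.  By induction on `t` the combined program
makes `t` lockstep steps (each puts a mark on the clock: on the zipper `Z (un E) []` the action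
`act (bit true) right` gives `Z (un (E + 1)) []`), then one idle step into `Sum.inr true`
(if `t1 ≤ t2`) or `Sum.inr false`, where it stops.  The tapes of the program that has not stopped
are bounded by `bdd_reach`, hence described by an abstract state (`exists_st_of_bdd`); the tapes
of the one that has stopped are bounded for the same reason.
-/

namespace Vale.Agent.P338.TM

open Vale.Agent.P338

variable {ι₀ ι₁ ι₂ Γ : Type}

theorem Prog.Reach.split {ι : Type} {P : Prog ι Γ} : ∀ (a b : ℕ) {x z : P.Q × Conf ι Γ},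
    P.Reach (a + b) x z → ∃ y, P.Reach a x y ∧ P.Reach b y z
  | 0, b, x, z, h => ⟨x, Prog.Reach.zero x, by simpa using h⟩
  | a + 1, b, x, z, h => by
    have e : a + 1 + b = (a + b) + 1 := by omega
    rw [e] at h
    cases h with
    | succ hs hr =>
      obtain ⟨y, h1, h2⟩ := Prog.Reach.split a b hr
      exact ⟨y, Prog.Reach.succ hs h1, h2⟩

variable [TapeAlpha Γ] [DecidableEq ι₀]

theorem par_clock_step (clk : ι₀) (s0 : St ι₀ Γ) (E : ℕ) (x : ι₀) :
    (conc (Function.update s0 clk (Z (un E) [])) x).act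
        (if x = clk then bit true else reads (conc (Function.update s0 clk (Z (un E) []))) x)
        (if x = clk then Move.right else Move.stay)
      = conc (Function.update s0 clk (Z (un (E + 1)) [])) x := by
  by_cases hx : x = clk
  · subst hx
    simp only [if_true, conc, Function.update_self]
    rw [Zip.toTp_act, Z_act_right]
    simp [un, List.replicate_succ']
  · simp only [if_neg hx, conc, Function.update_of_ne hx, reads]
    exact Tp.act_read_stay _

theorem par_step_both (P : Prog ι₁ Γ) (R : Prog ι₂ Γ) (clk : ι₀) (s0 : St ι₀ Γ) (E : ℕ)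
    {x1 y1 : P.Q × Conf ι₁ Γ} {x2 y2 : R.Q × Conf ι₂ Γ}
    (h1 : P.step x1 = some y1) (h2 : R.step x2 = some y2) :
    (par P R clk).step (Sum.inl (x1.1, x2.1),
        Sum.elim (conc (Function.update s0 clk (Z (un E) []))) (Sum.elim x1.2 x2.2))
      = some (Sum.inl (y1.1, y2.1),
        Sum.elim (conc (Function.update s0 clk (Z (un (E + 1)) []))) (Sum.elim y1.2 y2.2)) := by
  obtain ⟨q1, c1⟩ := x1
  obtain ⟨q2, c2⟩ := x2
  simp only [Prog.step] at h1 h2
  cases hd1 : P.δ q1 (reads c1) with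
  | none => rw [hd1] at h1; simp at h1
  | some r1 =>
    cases hd2 : R.δ q2 (reads c2) with
    | none => rw [hd2] at h2; simp at h2
    | some r2 =>
      rw [hd1] at h1
      rw [hd2] at h2
      simp only [Option.map_some, Option.some.injEq] at h1 h2
      subst h1
      subst h2
      have hr1 : (fun i => reads (Sum.elim (conc (Function.update s0 clk (Z (un E) [])))
          (Sum.elim c1 c2) : Conf (ι₀ ⊕ (ι₁ ⊕ ι₂)) Γ) (Sum.inr (Sum.inl i))) = reads c1 := rfl
      have hr2 : (fun i => reads (Sum.elim (conc (Function.update s0 clk (Z (un E) [])))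
          (Sum.elim c1 c2) : Conf (ι₀ ⊕ (ι₁ ⊕ ι₂)) Γ) (Sum.inr (Sum.inr i))) = reads c2 := rfl
      simp only [Prog.step, par, hr1, hr2, hd1, hd2, Option.map_some, Option.some.injEq,
        Prod.mk.injEq, true_and]
      funext i
      rcases i with x | i | j
      · exact par_clock_step clk s0 E x
      · rfl
      · rfl

theorem par_reach (P : Prog ι₁ Γ) (R : Prog ι₂ Γ) (clk : ι₀) (s0 : St ι₀ Γ) :
    ∀ (t E : ℕ) {x1 y1 : P.Q × Conf ι₁ Γ} {x2 y2 : R.Q × Conf ι₂ Γ},
    P.Reach t x1 y1 → R.Reach t x2 y2 →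
    (par P R clk).Reach t (Sum.inl (x1.1, x2.1),
        Sum.elim (conc (Function.update s0 clk (Z (un E) []))) (Sum.elim x1.2 x2.2))
      (Sum.inl (y1.1, y2.1),
        Sum.elim (conc (Function.update s0 clk (Z (un (E + t)) []))) (Sum.elim y1.2 y2.2))
  | 0, E, x1, y1, x2, y2, h1, h2 => by
    cases h1
    cases h2
    exact Prog.Reach.zero _
  | t + 1, E, x1, y1, x2, y2, h1, h2 => by
    cases h1 with
    | succ hs1 hr1 =>
      cases h2 with
      | succ hs2 hr2 =>
        have e : E + (t + 1) = E + 1 + t := by omega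
        rw [e]
        exact Prog.Reach.succ (par_step_both P R clk s0 E hs1 hs2)
          (par_reach P R clk s0 t (E + 1) hr1 hr2)

theorem par_step_stopL (P : Prog ι₁ Γ) (R : Prog ι₂ Γ) (clk : ι₀) (c0 : Conf ι₀ Γ)
    {x1 : P.Q × Conf ι₁ Γ} (x2 : R.Q × Conf ι₂ Γ) (h1 : P.step x1 = none) :
    (par P R clk).step (Sum.inl (x1.1, x2.1), Sum.elim c0 (Sum.elim x1.2 x2.2))
      = some (Sum.inr true, Sum.elim c0 (Sum.elim x1.2 x2.2)) := by
  obtain ⟨q1, c1⟩ := x1
  obtain ⟨q2, c2⟩ := x2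
  simp only [Prog.step, Option.map_eq_none_iff] at h1
  have hr1 : (fun i => reads (Sum.elim c0 (Sum.elim c1 c2) : Conf (ι₀ ⊕ (ι₁ ⊕ ι₂)) Γ)
      (Sum.inr (Sum.inl i))) = reads c1 := rfl
  simp only [Prog.step, par, hr1, h1, Option.map_some, Option.some.injEq,
    Prod.mk.injEq, true_and]
  funext i
  exact Tp.act_read_stay _

theorem par_step_stopR (P : Prog ι₁ Γ) (R : Prog ι₂ Γ) (clk : ι₀) (c0 : Conf ι₀ Γ)
    {x1 y1 : P.Q × Conf ι₁ Γ} {x2 : R.Q × Conf ι₂ Γ} (h1 : P.step x1 = some y1)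
    (h2 : R.step x2 = none) :
    (par P R clk).step (Sum.inl (x1.1, x2.1), Sum.elim c0 (Sum.elim x1.2 x2.2))
      = some (Sum.inr false, Sum.elim c0 (Sum.elim x1.2 x2.2)) := by
  obtain ⟨q1, c1⟩ := x1
  obtain ⟨q2, c2⟩ := x2
  simp only [Prog.step, Option.map_eq_none_iff] at h2
  simp only [Prog.step] at h1
  cases hd1 : P.δ q1 (reads c1) with
  | none => rw [hd1] at h1; simp at h1
  | some r1 =>
    have hr1 : (fun i => reads (Sum.elim c0 (Sum.elim c1 c2) : Conf (ι₀ ⊕ (ι₁ ⊕ ι₂)) Γ)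
        (Sum.inr (Sum.inl i))) = reads c1 := rfl
    have hr2 : (fun i => reads (Sum.elim c0 (Sum.elim c1 c2) : Conf (ι₀ ⊕ (ι₁ ⊕ ι₂)) Γ)
        (Sum.inr (Sum.inr i))) = reads c2 := rfl
    simp only [Prog.step, par, hr1, hr2, hd1, h2, Option.map_some, Option.some.injEq,
      Prod.mk.injEq, true_and]
    funext i
    exact Tp.act_read_stay _

omit [DecidableEq ι₀] in
theorem par_conc (a : St ι₀ Γ) (b : St ι₁ Γ) (c : St ι₂ Γ) :
    conc (Sum.elim a (Sum.elim b c)) = Sum.elim (conc a) (Sum.elim (conc b) (conc c)) := by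
  funext i
  rcases i with x | i | j <;> rfl

theorem par_spec (P : Prog ι₁ Γ) (R : Prog ι₂ Γ) (clk : ι₀) (s0 : St ι₀ Γ) (E : ℕ)
    (hc : s0 clk = Z (un E) [])
    {s1 s1' : St ι₁ Γ} {s2 s2' : St ι₂ Γ} {T1 T2 : ℕ} {b1 b2 : Bool}
    (h1 : P.SRuns s1 T1 s1' b1) (h2 : R.SRuns s2 T2 s2' b2)
    (E0 : ℕ) (hb1 : BddS E0 s1) (hb2 : BddS E0 s2) :
    ∃ (t : ℕ) (x1 : St ι₁ Γ) (x2 : St ι₂ Γ) (b : Bool), t ≤ T1 ∧ t ≤ T2 ∧
      BddS (E0 + t) x1 ∧ BddS (E0 + t) x2 ∧
      (par P R clk).SRuns (Sum.elim s0 (Sum.elim s1 s2)) (t + 1)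
        (Sum.elim (Function.update s0 clk (Z (un (E + t)) [])) (Sum.elim x1 x2)) b ∧
      (b = true → x1 = s1') ∧ (b = false → x2 = s2') := by
  obtain ⟨t1, ht1, q1, hr1, hs1, _⟩ := h1
  obtain ⟨t2, ht2, q2, hr2, hs2, _⟩ := h2
  have hs0 : s0 = Function.update s0 clk (Z (un E) []) := by
    rw [← hc, Function.update_eq_self]
  rcases le_or_gt t1 t2 with hle | hlt
  · obtain ⟨d, rfl⟩ := Nat.exists_eq_add_of_le hle
    obtain ⟨y2, hy2, _⟩ := Prog.Reach.split t1 d hr2
    have hB2 := bdd_reach R hy2 E0 hb2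
    obtain ⟨x2, hx2, hx2b⟩ := exists_st_of_bdd hB2
    have hB1 := bdd_reach P hr1 E0 hb1
    refine ⟨t1, s1', x2, true, ht1, by omega, hB1, hx2b, ?_, fun _ => rfl, fun h => by simp at h⟩
    refine ⟨t1 + 1, le_rfl, Sum.inr true, ?_, rfl, rfl⟩
    rw [par_conc, par_conc, hx2]
    have hmain := par_reach P R clk s0 t1 E hr1 hy2
    rw [← hs0] at hmain
    refine Prog.Reach.trans hmain ?_
    refine Prog.Reach.succ ?_ (Prog.Reach.zero _)
    exact par_step_stopL P R clk _ y2 hs1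
  · obtain ⟨d, rfl⟩ := Nat.exists_eq_add_of_lt hlt
    have e : t2 + d + 1 = t2 + (d + 1) := by omega
    rw [e] at hr1
    obtain ⟨y1, hy1, hy1'⟩ := Prog.Reach.split t2 (d + 1) hr1
    have hB1 := bdd_reach P hy1 E0 hb1
    obtain ⟨x1, hx1, hx1b⟩ := exists_st_of_bdd hB1
    have hB2 := bdd_reach R hr2 E0 hb2
    refine ⟨t2, x1, s2', false, by omega, ht2, hx1b, hB2, ?_, fun h => by simp at h, fun _ => rfl⟩
    refine ⟨t2 + 1, le_rfl, Sum.inr false, ?_, rfl, rfl⟩
    rw [par_conc, par_conc, hx1]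
    have hmain := par_reach P R clk s0 t2 E hy1 hr2
    rw [← hs0] at hmain
    refine Prog.Reach.trans hmain ?_
    refine Prog.Reach.succ ?_ (Prog.Reach.zero _)
    cases hy1' with
    | succ hst _ => exact par_step_stopR P R clk _ hst hs2

end Vale.Agent.P338.TM
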