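import Vale.Agent.P338.Duel.Bdd

/-!
Resetting a family of tapes.

Sketch (work with concrete tapes `Tp`, i.e. unfold `SRuns` to `Runs (conc _) ..`, or with the rules
`scan_step`, `scan_stop`, `prim_runs`, `seq_runs` of CoreBasic/CoreSeq; compare TM/MulABack and
TM/MulAWipe, where the same is done for the tapes of the multiplier).  The clock tape is
`lend 1^E` with the head on cell `E + 1`.
1. first scan: `E + 1` steps, the clock head goes to cell `0`; every side head (`≤ E`) goes to
   cell `0` (a move to the left on cell `0` does nothing), no cell changes;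
2. cell `0` of the side tapes gets `lend` or `blank`, all heads go to cell `1`;
3. second scan: `E` steps, the cells `1, ..., E` of the side tapes are blanked (all cells from `E` on
   were blank), all heads end on cell `E + 1`;
4. third scan: `E + 1` steps back to cell `0`, the clock marks are blanked;
5. the clock head and the heads of the tapes with `mk j = true` go to cell `1`.
-/

namespace Vale.Agent.P338.TM

open Vale.Agent.P338
open Classical

variable {ι₀ ιs Γ : Type} [TapeAlpha Γ] [DecidableEq ι₀]

/-- A concrete configuration: base tapes, the clock tape, the side tapes. -/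
def wpK (clk : ι₀) (b : ι₀ → Tp Γ) (t : Tp Γ) (sd : ιs → Tp Γ) : Conf (ι₀ ⊕ ιs) Γ :=
  Sum.elim (Function.update b clk t) sd

theorem wp_reads_clk (clk : ι₀) (b : ι₀ → Tp Γ) (t : Tp Γ) (sd : ιs → Tp Γ) :
    reads (wpK clk b t sd) (Sum.inl clk) = t.read := by
  simp [reads, wpK]

theorem wp_app (clk : ι₀) (b : ι₀ → Tp Γ) (t : Tp Γ) (sd : ιs → Tp Γ)
    (wS : ιs → Γ → Γ) (mS : ιs → Move) (wc : Γ → Γ) (mc : Move) :
    (allS clk wS mS wc mc (reads (wpK clk b t sd))).app (wpK clk b t sd)
      = wpK clk b (t.act (wc t.read) mc) (fun j => (sd j).act (wS j (sd j).read) (mS j)) := by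
  funext i
  cases i with
  | inl x =>
    by_cases hx : x = clk
    · subst hx
      simp [Instr.app, allS, wpK, reads]
    · simp [Instr.app, allS, wpK, hx]
  | inr j =>
    simp [Instr.app, allS, wpK, reads]

theorem wp_act_same (t : Tp Γ) (m : Move) : t.act t.read m = ⟨t.cells, m.apply t.head⟩ := by
  simp [Tp.act, Tp.read]

/-- A scan to the left. -/
theorem wp_scanL (clk : ι₀) (b : ι₀ → Tp Γ) (wc : Γ → Γ) (k : ℕ) :
    ∀ (t : Tp Γ) (sd : ιs → Tp Γ), t.head = k → t.cells 0 = lend →
      (∀ i, 1 ≤ i → i ≤ k → t.cells i ≠ lend) →
      (scan fun a => if a (Sum.inl clk) = lend then none else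
        some (allS clk (fun (_ : ιs) y => y) (fun _ => Move.left) wc Move.left a)).Runs
        (wpK clk b t sd) k
        (wpK clk b ⟨fun i => if 1 ≤ i ∧ i ≤ k then wc (t.cells i) else t.cells i, 0⟩
          (fun j => ⟨(sd j).cells, (sd j).head - k⟩)) true := by
  induction k with
  | zero =>
    intro t sd h0 hl _
    have e : wpK clk b ⟨fun i => if 1 ≤ i ∧ i ≤ 0 then wc (t.cells i) else t.cells i, 0⟩
        (fun j => ⟨(sd j).cells, (sd j).head - 0⟩) = wpK clk b t sd := by
      congr 1
      obtain ⟨cells, head⟩ := t
      simp only at h0
      subst h0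
      congr 1
      funext i
      rw [if_neg (by omega)]
    rw [e]
    apply scan_stop
    have : reads (wpK clk b t sd) (Sum.inl clk) = lend := by
      rw [wp_reads_clk]; unfold Tp.read; rw [h0]; exact hl
    exact if_pos this
  | succ k ih =>
    intro t sd h0 hl hne
    have hr : reads (wpK clk b t sd) (Sum.inl clk) ≠ lend := by
      rw [wp_reads_clk]; unfold Tp.read; rw [h0]; exact hne (k + 1) (by omega) le_rfl
    refine scan_step _ _ (allS clk (fun (_ : ιs) y => y) (fun _ => Move.left) wc Move.left
      (reads (wpK clk b t sd))) ?_ ?_
    · exact if_neg hr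
    · rw [wp_app]
      have h1 := ih (t.act (wc t.read) Move.left) (fun j => (sd j).act (sd j).read Move.left)
        (by simp [Tp.act, Move.apply, h0])
        (by
          show Function.update t.cells t.head (wc t.read) 0 = lend
          rw [Function.update_of_ne (by omega)]; exact hl)
        (by
          intro i hi1 hi2
          show Function.update t.cells t.head (wc t.read) i ≠ lend
          rw [Function.update_of_ne (by omega)]; exact hne i hi1 (by omega))
      have e : wpK clk b ⟨fun i => if 1 ≤ i ∧ i ≤ k then wc ((t.act (wc t.read) Move.left).cells i)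
            else (t.act (wc t.read) Move.left).cells i, 0⟩
          (fun j => ⟨((sd j).act (sd j).read Move.left).cells,
            ((sd j).act (sd j).read Move.left).head - k⟩)
          = wpK clk b ⟨fun i => if 1 ≤ i ∧ i ≤ k + 1 then wc (t.cells i) else t.cells i, 0⟩
          (fun j => ⟨(sd j).cells, (sd j).head - (k + 1)⟩) := by
        congr 1
        · congr 1
          funext i
          show (if 1 ≤ i ∧ i ≤ k then wc (Function.update t.cells t.head (wc t.read) i)
            else Function.update t.cells t.head (wc t.read) i) = _
          by_cases hi : i = k + 1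
          · subst hi
            rw [if_neg (by omega), if_pos (by omega), h0, Function.update_self]
            unfold Tp.read
            rw [h0]
          · rw [Function.update_of_ne (by omega)]
            by_cases h2 : 1 ≤ i ∧ i ≤ k
            · rw [if_pos h2, if_pos (by omega)]
            · rw [if_neg h2, if_neg (by omega)]
        · funext j
          rw [wp_act_same]
          simp only [Move.apply]
          congr 1
          omega
      rw [e] at h1
      exact h1

/-- The scan to the right. -/
theorem wp_scanR (clk : ι₀) (b : ι₀ → Tp Γ) (k : ℕ) :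
    ∀ (t : Tp Γ) (sd : ιs → Tp Γ),
      (∀ i, t.head ≤ i → i < t.head + k → t.cells i ≠ blank) → t.cells (t.head + k) = blank →
      (scan fun a => if a (Sum.inl clk) = blank then none else
        some (allS clk (fun (_ : ιs) _ => blank) (fun _ => Move.right) id Move.right a)).Runs
        (wpK clk b t sd) k
        (wpK clk b ⟨t.cells, t.head + k⟩
          (fun j => ⟨fun i => if (sd j).head ≤ i ∧ i < (sd j).head + k then blank
            else (sd j).cells i, (sd j).head + k⟩)) true := by
  induction k with
  | zero =>
    intro t sd _ hb
    have e : wpK clk b ⟨t.cells, t.head + 0⟩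
        (fun j => ⟨fun i => if (sd j).head ≤ i ∧ i < (sd j).head + 0 then blank
            else (sd j).cells i, (sd j).head + 0⟩) = wpK clk b t sd := by
      congr 1
      funext j
      obtain ⟨cells, head⟩ := sd j
      simp only [Nat.add_zero]
      congr 1
      funext i
      rw [if_neg (by omega)]
    rw [e]
    apply scan_stop
    have : reads (wpK clk b t sd) (Sum.inl clk) = blank := by
      rw [wp_reads_clk]; unfold Tp.read; simpa using hb
    exact if_pos this
  | succ k ih =>
    intro t sd hne hb
    have hr : reads (wpK clk b t sd) (Sum.inl clk) ≠ blank := by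
      rw [wp_reads_clk]; unfold Tp.read; exact hne t.head le_rfl (by omega)
    refine scan_step _ _ (allS clk (fun (_ : ιs) _ => blank) (fun _ => Move.right) id Move.right
      (reads (wpK clk b t sd))) ?_ ?_
    · exact if_neg hr
    · rw [wp_app]
      have ht : t.act (id t.read) Move.right = ⟨t.cells, t.head + 1⟩ := wp_act_same t Move.right
      rw [ht]
      have h1 := ih ⟨t.cells, t.head + 1⟩ (fun j => (sd j).act blank Move.right)
        (by
          intro i hi1 hi2
          exact hne i (by simp only at hi1; omega) (by simp only at hi2; omega))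
        (by
          show t.cells (t.head + 1 + k) = blank
          have e : t.head + 1 + k = t.head + (k + 1) := by omega
          rw [e]; exact hb)
      have e : wpK clk b ⟨t.cells, t.head + 1 + k⟩
          (fun j => ⟨fun i => if ((sd j).act blank Move.right).head ≤ i ∧
              i < ((sd j).act blank Move.right).head + k then blank
            else ((sd j).act blank Move.right).cells i, ((sd j).act blank Move.right).head + k⟩)
          = wpK clk b ⟨t.cells, t.head + (k + 1)⟩
          (fun j => ⟨fun i => if (sd j).head ≤ i ∧ i < (sd j).head + (k + 1) then blank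
            else (sd j).cells i, (sd j).head + (k + 1)⟩) := by
        congr 1
        · congr 1
          omega
        · funext j
          show (⟨fun i => if (sd j).head + 1 ≤ i ∧ i < (sd j).head + 1 + k then blank
            else Function.update (sd j).cells (sd j).head blank i, (sd j).head + 1 + k⟩ : Tp Γ) = _
          congr 1
          · funext i
            by_cases hi : i = (sd j).head
            · rw [if_neg (by omega), if_pos (by omega), hi, Function.update_self]
            · rw [Function.update_of_ne hi]
              by_cases h2 : (sd j).head + 1 ≤ i ∧ i < (sd j).head + 1 + k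
              · rw [if_pos h2, if_pos (by omega)]
              · rw [if_neg h2, if_neg (by omega)]
          · omega
      rw [e] at h1
      exact h1

theorem wp_clock_cells (E j : ℕ) :
    ((Z (un E) [] : Zip Γ).toTp).cells j
      = if j = 0 then lend else if j ≤ E then bit true else blank := by
  simp only [Z, Zip.toTp, List.reverse_append, List.reverse_reverse, List.reverse_cons,
    List.reverse_nil, List.nil_append, List.append_nil, List.singleton_append]
  cases j with
  | zero => simp
  | succ j =>
    simp only [List.getD_cons_succ, Nat.add_eq_zero_iff, one_ne_zero, and_false, if_false]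
    by_cases h : j < E
    · rw [if_pos (by omega), List.getD_eq_getElem _ _ (by simpa [un] using h)]
      simp [un]
    · rw [if_neg (by omega), List.getD_eq_default _ _ (by simpa [un] using h)]

theorem wp_clock_head (E : ℕ) : ((Z (un E) [] : Zip Γ).toTp).head = E + 1 := by
  simp [Z, Zip.toTp, un]

theorem wipe_spec (clk : ι₀) (mk : ιs → Bool) (s0 : St ι₀ Γ) (E : ℕ)
    (hc : s0 clk = Z (un E) []) (x : St ιs Γ) (hx : BddS E x) :
    (wipe clk mk).SRuns (Sum.elim s0 x) (3 * E + 20)
      (Sum.elim (Function.update s0 clk (Z [] [])) (wiped mk)) true := by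
  unfold Prog.SRuns wipe
  let b : ι₀ → Tp Γ := fun i => (s0 i).toTp
  let t0 : Tp Γ := (Z (un E) [] : Zip Γ).toTp
  have hcell : ∀ j, t0.cells j = if j = 0 then lend else if j ≤ E then bit true else blank :=
    wp_clock_cells E
  have hstart : conc (Sum.elim s0 x) = wpK clk b t0 (fun j => (x j).toTp) := by
    funext i
    cases i with
    | inl y =>
      by_cases hy : y = clk
      · subst hy
        simp [conc, wpK, hc, t0]
      · simp [conc, wpK, hy, b]
    | inr j => simp [conc, wpK]
  rw [hstart]
  -- phase 1
  have p1 := wp_scanL clk b id (E + 1) t0 (fun j => (x j).toTp) (wp_clock_head E)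
    (by rw [hcell]; simp)
    (by
      intro i h1 h2
      rw [hcell, if_neg (by omega)]
      by_cases h : i ≤ E
      · rw [if_pos h]; exact TapeAlpha.bit_ne_lend true
      · rw [if_neg h]; exact (TapeAlpha.lend_ne_blank).symm)
  have e1 : wpK clk b ⟨fun i => if 1 ≤ i ∧ i ≤ E + 1 then id (t0.cells i) else t0.cells i, 0⟩
      (fun j => ⟨((x j).toTp).cells, ((x j).toTp).head - (E + 1)⟩)
      = wpK clk b ⟨t0.cells, 0⟩ (fun j => ⟨((x j).toTp).cells, 0⟩) := by
    congr 1
    · congr 1
      funext i
      simp
    · funext j
      congr 1
      have := (hx j).1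
      omega
  rw [e1] at p1
  -- phase 2
  have p2 := prim_runs (fun a => allS clk (fun j _ => if mk j then lend else blank)
    (fun _ => Move.right) id Move.right a)
    (wpK clk b ⟨t0.cells, 0⟩ (fun j => ⟨((x j).toTp).cells, 0⟩))
  rw [wp_app] at p2
  have e2 : wpK clk b ((⟨t0.cells, 0⟩ : Tp Γ).act (id (⟨t0.cells, 0⟩ : Tp Γ).read) Move.right)
      (fun j => (⟨((x j).toTp).cells, 0⟩ : Tp Γ).act (if mk j then lend else blank) Move.right)
      = wpK clk b ⟨t0.cells, 1⟩
        (fun j => ⟨Function.update ((x j).toTp).cells 0 (if mk j then lend else blank), 1⟩) := by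
    congr 1
    exact wp_act_same _ _
  rw [e2] at p2
  -- phase 3
  have p3 := wp_scanR clk b E ⟨t0.cells, 1⟩
    (fun j => ⟨Function.update ((x j).toTp).cells 0 (if mk j then lend else blank), 1⟩)
    (by
      intro i h1 h2
      simp only at h1 h2 ⊢
      rw [hcell, if_neg (by omega), if_pos (by omega)]
      exact TapeAlpha.bit_ne_blank true)
    (by
      simp only
      rw [hcell, if_neg (by omega), if_neg (by omega)])
  simp only at p3
  -- phase 4
  have p4 := wp_scanL clk b (fun _ => blank) (E + 1) ⟨t0.cells, 1 + E⟩
    (fun j => ⟨fun i => if 1 ≤ i ∧ i < 1 + E then blank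
      else Function.update ((x j).toTp).cells 0 (if mk j then lend else blank) i, 1 + E⟩)
    (by simp only; omega)
    (by simp only; rw [hcell]; simp)
    (by
      intro i h1 h2
      simp only
      rw [hcell, if_neg (by omega)]
      by_cases h : i ≤ E
      · rw [if_pos h]; exact TapeAlpha.bit_ne_lend true
      · rw [if_neg h]; exact (TapeAlpha.lend_ne_blank).symm)
  simp only at p4
  -- phase 5
  have p5 := prim_runs (fun a => allS clk (fun (_ : ιs) y => y)
    (fun j => if mk j then Move.right else Move.stay) id Move.right a)
    (wpK clk b ⟨fun i => if 1 ≤ i ∧ i ≤ E + 1 then blank else t0.cells i, 0⟩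
      (fun j => ⟨fun i => if 1 ≤ i ∧ i < 1 + E then blank
      else Function.update ((x j).toTp).cells 0 (if mk j then lend else blank) i,
        1 + E - (E + 1)⟩))
  rw [wp_app] at p5
  have hfin : wpK clk b ((⟨fun i => if 1 ≤ i ∧ i ≤ E + 1 then blank else t0.cells i, 0⟩ : Tp Γ).act
        (id (⟨fun i => if 1 ≤ i ∧ i ≤ E + 1 then blank else t0.cells i, 0⟩ : Tp Γ).read) Move.right)
      (fun j => (⟨fun i => if 1 ≤ i ∧ i < 1 + E then blank
      else Function.update ((x j).toTp).cells 0 (if mk j then lend else blank) i,
        1 + E - (E + 1)⟩ : Tp Γ).act (⟨fun i => if 1 ≤ i ∧ i < 1 + E then blank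
      else Function.update ((x j).toTp).cells 0 (if mk j then lend else blank) i,
        1 + E - (E + 1)⟩ : Tp Γ).read (if mk j then Move.right else Move.stay))
      = conc (Sum.elim (Function.update s0 clk (Z [] [])) (wiped mk)) := by
    have hZ : ((Z [] [] : Zip Γ).toTp) = ⟨fun i => if i = 0 then lend else blank, 1⟩ := by
      simp only [Z, Zip.toTp, List.reverse_nil, List.nil_append, List.append_nil,
        List.reverse_cons, List.length_cons, List.length_nil]
      congr 1
      funext i
      cases i with
      | zero => simp
      | succ i => simp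
    have hN : ((⟨[], []⟩ : Zip Γ).toTp) = ⟨fun _ => blank, 0⟩ := by
      simp [Zip.toTp]
    funext i
    cases i with
    | inl y =>
      by_cases hy : y = clk
      · subst hy
        have hl : wpK y b ((⟨fun i => if 1 ≤ i ∧ i ≤ E + 1 then blank else t0.cells i, 0⟩ : Tp Γ).act
            (id (⟨fun i => if 1 ≤ i ∧ i ≤ E + 1 then blank else t0.cells i, 0⟩ : Tp Γ).read)
              Move.right)
          (fun j => (⟨fun i => if 1 ≤ i ∧ i < 1 + E then blank
          else Function.update ((x j).toTp).cells 0 (if mk j then lend else blank) i,
            1 + E - (E + 1)⟩ : Tp Γ).act (⟨fun i => if 1 ≤ i ∧ i < 1 + E then blank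
          else Function.update ((x j).toTp).cells 0 (if mk j then lend else blank) i,
            1 + E - (E + 1)⟩ : Tp Γ).read (if mk j then Move.right else Move.stay)) (Sum.inl y)
          = (⟨fun i => if 1 ≤ i ∧ i ≤ E + 1 then blank else t0.cells i, 0⟩ : Tp Γ).act
            (⟨fun i => if 1 ≤ i ∧ i ≤ E + 1 then blank else t0.cells i, 0⟩ : Tp Γ).read
              Move.right := by
          simp [wpK]
        rw [hl, wp_act_same]
        have hr : conc (Sum.elim (Function.update s0 y (Z [] [])) (wiped mk)) (Sum.inl y)
            = (Z [] [] : Zip Γ).toTp := by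
          simp [conc]
        rw [hr, hZ]
        simp only [Move.apply]
        congr 1
        funext i
        rw [hcell]
        by_cases h0 : i = 0
        · rw [if_neg (by omega), if_pos h0, if_pos h0]
        · rw [if_neg h0, if_neg h0]
          by_cases h1 : i ≤ E + 1
          · rw [if_pos (by omega)]
          · rw [if_neg (by omega), if_neg (by omega)]
      · simp [conc, wpK, hy, b]
    | inr j =>
      show (⟨fun i => if 1 ≤ i ∧ i < 1 + E then blank
          else Function.update ((x j).toTp).cells 0 (if mk j then lend else blank) i,
            1 + E - (E + 1)⟩ : Tp Γ).act (⟨fun i => if 1 ≤ i ∧ i < 1 + E then blank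
          else Function.update ((x j).toTp).cells 0 (if mk j then lend else blank) i,
            1 + E - (E + 1)⟩ : Tp Γ).read (if mk j then Move.right else Move.stay)
        = (wiped mk j).toTp
      rw [wp_act_same]
      have hE : 1 + E - (E + 1) = 0 := by omega
      simp only [hE]
      have hbl := (hx j).2
      unfold wiped
      by_cases hm : mk j = true
      · rw [if_pos hm, if_pos hm, if_pos hm, hZ]
        simp only [Move.apply]
        congr 1
        funext i
        by_cases h0 : i = 0
        · subst h0
          rw [if_neg (by omega), Function.update_self, if_pos rfl]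
        · rw [if_neg h0, Function.update_of_ne h0]
          by_cases h1 : i < 1 + E
          · rw [if_pos (by omega)]
          · rw [if_neg (by omega)]
            exact hbl i (by omega)
      · rw [if_neg hm, if_neg hm, if_neg hm, hN]
        simp only [Move.apply]
        congr 1
        funext i
        by_cases h0 : i = 0
        · subst h0
          rw [if_neg (by omega), Function.update_self]
        · rw [Function.update_of_ne h0]
          by_cases h1 : i < 1 + E
          · rw [if_pos (by omega)]
          · rw [if_neg (by omega)]
            exact hbl i (by omega)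
  rw [hfin] at p5
  exact (seq_runs p1 (seq_runs p2 (seq_runs p3 (seq_runs p4 p5)))).mono (by omega)

end Vale.Agent.P338.TM
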