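import Vale.Agent.P338.Duel.LoadSpec
import Vale.Agent.P338.Duel.ParSpec
import Vale.Agent.P338.Duel.WipeSpec
import Vale.Agent.P338.Duel.ClassSpec
import Vale.Agent.P338.TM.SpecOpStep

/-!
One operation of the second machine.

Sketch.  `load_spec`; then `par_spec` with `P = opStep A` (`opStep_spec` with `sO = sideSt ..`,
`q = 2^(κ2-σ-lo-up)`), `R = classOp` (`classOp_spec`), `E = D.length + 1`, `E0 = D.length + 1`
(all tapes of `sideSt` are bounded by `2^κ2 + 1` because `σ, lo, up < 2^κ2`: `bddT_Z`, `bddT_nil`).
It yields `t ≤ min ..`, states `x1`, `x2` bounded by `E0 + t` and a label `b`.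
If `b = true`, `x1 = glue blankA (update (sideSt ..) X (result))`, and `copyOver_spec` copies the
result to the main tape `X` without changing the side tapes; if `b = false` the same with `x2`.
(`ite_sruns_true`, `ite_sruns_false`.)  Finally `wipe_spec` with `E = D.length + 1 + t`.
Total time `≤ 4 * (4 * 2^κ2) + 100 + (t + 1) + (3 * 2^κ2 + 8) + 3 * (2^κ2 + 1 + t) + 20 + 10`.
-/

namespace Vale.Agent.P338.TM

open Vale.Agent.P338

variable {k : ℕ} [NeZero k]

theorem sideSt_bdd {Γ : Type} [TapeAlpha Γ] (σ lo up : ℕ) (D : List Bool) (E : ℕ)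
    (h0 : D.length + 1 ≤ E) (h1 : σ + 1 ≤ E) (h2 : lo + 1 ≤ E) (h3 : up + 1 ≤ E) :
    BddS E (sideSt σ lo up D : St Own Γ) := by
  intro x
  unfold sideSt
  by_cases hx3 : x = Own.d3
  · subst hx3
    rw [Function.update_self]
    exact bddT_Z _ _ _ (by simpa [un] using h3)
  rw [Function.update_of_ne hx3]
  by_cases hx2 : x = Own.d2
  · subst hx2
    rw [Function.update_self]
    exact bddT_Z _ _ _ (by simpa [un] using h2)
  rw [Function.update_of_ne hx2]
  by_cases hx1 : x = Own.d1
  · subst hx1
    rw [Function.update_self]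
    exact bddT_Z _ _ _ (by simpa [un] using h1)
  rw [Function.update_of_ne hx1]
  by_cases hx0 : x = Own.X
  · subst hx0
    rw [Function.update_self]
    exact bddT_Z _ _ _ (by simpa [bits] using h0)
  rw [Function.update_of_ne hx0]
  exact bddT_Z _ _ _ (by simp; omega)

theorem sideSt_idle {Γ : Type} [TapeAlpha Γ] (σ lo up : ℕ) (D : List Bool) (x : Own)
    (h0 : x ≠ Own.X) (h1 : x ≠ Own.d1) (h2 : x ≠ Own.d2) (h3 : x ≠ Own.d3) :
    (sideSt σ lo up D : St Own Γ) x = Z [] [] := by
  unfold sideSt
  rw [Function.update_of_ne h3, Function.update_of_ne h2, Function.update_of_ne h1,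
    Function.update_of_ne h0]

theorem duel_spec (A : Machine k) (hA : A.Multiplies) (κ2 : ℕ) (op : Op) (hop : OkOp κ2 op)
    (hlo : 1 ≤ op.2.1) (hup : 1 ≤ op.2.2)
    (s : St Own (GA A)) (hc : s Own.clk = Z [] [])
    (h1 : s Own.d1 = Z [] (un op.1)) (h2 : s Own.d2 = Z [] (un op.2.1))
    (h3 : s Own.d3 = Z [] (un op.2.2))
    (D : List Bool) (hD : D.length = 2 ^ κ2) (hX : s Own.X = Z [] (bits D)) :
    (duel A).SRuns (Sum.elim s (wiped mkT)) (cDuel A.worstTime κ2 op)
      (Sum.elim (Function.update s Own.X (Z [] (bits (opList op.1 op.2.1 op.2.2 D)))) (wiped mkT))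
      true := by
  obtain ⟨σ, lo, up⟩ := op
  simp only at hlo hup h1 h2 h3 ⊢
  obtain ⟨hop1, hop2⟩ := hop
  simp only at hop1 hop2
  have hκ : κ2 < 2 ^ κ2 := Nat.lt_two_pow_self
  have hL := load_spec A s σ lo up D hc h1 h2 h3 hX
  set sd : St Own (GA A) := sideSt σ lo up D with hsd
  have hd1 : sd Own.d1 = Z [] (un σ) := by simp [hsd, sideSt]
  have hd2 : sd Own.d2 = Z [] (un lo) := by simp [hsd, sideSt]
  have hd3 : sd Own.d3 = Z [] (un up) := by simp [hsd, sideSt]
  have hdX : sd Own.X = Z [] (bits D) := by simp [hsd, sideSt]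
  have hIdle : Idle sd := by
    intro x hx
    apply sideSt_idle
    all_goals
      rintro rfl
      revert hx
      decide
  have hq : D.length = 2 ^ (κ2 - σ - lo - up) * (2 ^ lo * 2 ^ up * 2 ^ σ) := by
    rw [hD, ← pow_add, ← pow_add, ← pow_add]
    congr 1
    omega
  have hP := opStep_spec A hA σ lo up hlo hup hop1 sd hd1 hd2 hd3 hIdle
    (2 ^ (κ2 - σ - lo - up)) D hq hdX
  obtain ⟨sc, hR, hRX⟩ := classOp_spec sd σ lo up κ2 hlo hup hop2 D hD hd1 hd2 hd3 hdX (by
    intro x hx
    apply sideSt_idle
    all_goals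
      rintro rfl
      revert hx
      decide)
  have hbs : BddS (D.length + 1) sd :=
    sideSt_bdd σ lo up D (D.length + 1) le_rfl (by omega) (by omega) (by omega)
  have hbg : BddS (D.length + 1) (glue (blankA : St (Fin k) (GA A)) sd) := by
    intro i
    rcases i with i | x
    · exact bddT_nil _
    · exact hbs x
  set sL : St Own (GA A) := Function.update s Own.clk (Z (un (D.length + 1)) []) with hsL
  obtain ⟨t, x1, x2, b, ht1, ht2, hx1, hx2, hpar, hbt, hbf⟩ :=
    par_spec (opStep A) (classOp : Prog Own (GA A)) Own.clk sL (D.length + 1)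
      (by simp [hsL]) hP hR (D.length + 1) hbg hbs
  set sM : St Own (GA A) := Function.update sL Own.clk (Z (un (D.length + 1 + t)) []) with hsM
  set res : List Bool := opList σ lo up D with hres
  have hlen : res.length = D.length := by
    rw [hres, opList_length' σ lo up κ2 (by omega) D hD, hD]
  have hMX : sM Own.X = Z [] (bits D) := by
    simp [hsM, hsL, hX]
  have hite : (ite (par (opStep A) classOp Own.clk) (copyOver (aT Own.X) (pT Own.X))
      (copyOver (cT Own.X) (pT Own.X)) : Prog (T2 k) (GA A)).SRuns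
      (Sum.elim sL (Sum.elim (glue blankA sd) sd)) ((t + 1) + (3 * D.length + 8) + 1)
      (Sum.elim (Function.update sM Own.X (Z [] (bits res))) (Sum.elim x1 x2)) true := by
    cases b with
    | true =>
      have hx1e := hbt rfl
      have hcp := copyOver_spec (aT Own.X : T2 k) (pT Own.X) (by simp)
        (Sum.elim sM (Sum.elim x1 x2)) (bits res) (bits D)
        (by simp [bits, hlen]) (blank_notMem_bits_fo _) (lend_notMem_bits_fo _)
        (by
          show x1 (Sum.inr Own.X) = _
          rw [hx1e]
          exact Function.update_self Own.X (Z [] (bits res)) sd) hMX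
      rw [Sum.update_elim_inl] at hcp
      have hl : (bits res : List (GA A)).length = D.length := by simp [bits, hlen]
      rw [hl] at hcp
      exact ite_sruns_true hpar hcp
    | false =>
      have hx2e := hbf rfl
      have hcp := copyOver_spec (cT Own.X : T2 k) (pT Own.X) (by simp)
        (Sum.elim sM (Sum.elim x1 x2)) (bits res) (bits D)
        (by simp [bits, hlen]) (blank_notMem_bits_fo _) (lend_notMem_bits_fo _)
        (by
          show x2 Own.X = _
          rw [hx2e, hRX]) hMX
      rw [Sum.update_elim_inl] at hcp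
      have hl : (bits res : List (GA A)).length = D.length := by simp [bits, hlen]
      rw [hl] at hcp
      exact ite_sruns_false hpar hcp
  have hW := wipe_spec (Γ := GA A) Own.clk (mkT : (Fin k ⊕ Own) ⊕ Own → Bool)
    (Function.update sM Own.X (Z [] (bits res))) (D.length + 1 + t)
    (by simp [hsM]) (Sum.elim x1 x2) (by
      intro i
      rcases i with i | x
      · exact hx1 i
      · exact hx2 x)
  have hfin : Function.update (Function.update sM Own.X (Z [] (bits res))) Own.clk (Z [] [])
      = Function.update s Own.X (Z [] (bits res)) := by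
    funext x
    by_cases hxc : x = Own.clk
    · subst hxc
      simp [hc]
    · by_cases hxX : x = Own.X
      · subst hxX
        simp
      · simp [hsM, hsL, Function.update_of_ne hxc, Function.update_of_ne hxX]
  rw [hfin] at hW
  have htot := seqs_cons hL (seqs_cons hite (seqs_cons hW (seqs_nil _)))
  refine Prog.SRuns.mono htot ?_
  have hmin : t ≤ min (cOpStep A.worstTime σ lo up (2 ^ (κ2 - σ - lo - up))) (cClass up κ2) :=
    le_min ht1 ht2
  unfold cDuel
  simp only
  omega

end Vale.Agent.P338.TM
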