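import Vale.Agent.P338.Duel.Defs1
import Vale.Agent.P338.TM.SpecAddReg

/-! Fan-out copies (compare `copyScan_spec`, `copyOver_spec` in TM/SpecAddReg). -/

namespace Vale.Agent.P338.TM

open Vale.Agent.P338

variable {ι Γ : Type} [TapeAlpha Γ] [DecidableEq ι]

open Classical in
/-- The scan of `fan`. -/
theorem fan_scan (x y z : ι) (hxy : x ≠ y) (hxz : x ≠ z) (hyz : y ≠ z) (w : List Γ) :
    ∀ (s : St ι Γ) (dx dy dz : List Γ), blank ∉ w → s x = Z dx w → s y = Z dy [] →
    s z = Z dz [] →
    (scan fun a => if a x = blank then none else
      some (((Instr.nil.set x (a x) Move.right).set y (a x) Move.right).set z (a x) Move.right) :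
      Prog ι Γ).SRuns s w.length
      (Function.update (Function.update (Function.update s x (Z (dx ++ w) [])) y
        (Z (dy ++ w) [])) z (Z (dz ++ w) [])) true := by
  induction w with
  | nil =>
    intro s dx dy dz _ hx hy hz
    have hs : Function.update (Function.update (Function.update s x (Z (dx ++ []) [])) y
        (Z (dy ++ []) [])) z (Z (dz ++ []) []) = s := by
      funext i
      by_cases h1 : i = z
      · subst h1; simp [hz]
      · by_cases h2 : i = y
        · subst h2; simp [hy, Function.update_of_ne h1]
        · by_cases h3 : i = x
          · subst h3; simp [hx, Function.update_of_ne h1, Function.update_of_ne h2]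
          · simp [Function.update_of_ne h1, Function.update_of_ne h2, Function.update_of_ne h3]
    rw [hs]
    apply scan_sstop
    simp [hx]
  | cons a w ih =>
    intro s dx dy dz hb hx hy hz
    have ha : a ≠ blank := fun h => hb (by simp [h])
    have hb' : blank ∉ w := fun h => hb (by simp [h])
    refine scan_sstep _ s (((Instr.nil.set x a Move.right).set y a Move.right).set z a
      Move.right) ?_ ?_
    · simp [hx, ha]
    · have e1 : (((Instr.nil.set x a Move.right).set y a Move.right).set z a Move.right).sapp s =
          Function.update (Function.update (Function.update s x (Z (dx ++ [a]) w)) y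
            (Z (dy ++ [a]) [])) z (Z (dz ++ [a]) []) := by
        simp [hx, hy, hz]
      rw [e1]
      have hih := ih (Function.update (Function.update (Function.update s x (Z (dx ++ [a]) w)) y
        (Z (dy ++ [a]) [])) z (Z (dz ++ [a]) [])) (dx ++ [a]) (dy ++ [a]) (dz ++ [a]) hb'
        (by simp [Function.update_of_ne hxy, Function.update_of_ne hxz])
        (by simp [Function.update_of_ne hyz]) (by simp)
      have e2 : Function.update (Function.update (Function.update (Function.update
          (Function.update (Function.update s x (Z (dx ++ [a]) w)) y
          (Z (dy ++ [a]) [])) z (Z (dz ++ [a]) [])) x (Z (dx ++ [a] ++ w) [])) y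
          (Z (dy ++ [a] ++ w) [])) z (Z (dz ++ [a] ++ w) []) =
          Function.update (Function.update (Function.update s x (Z (dx ++ a :: w) [])) y
            (Z (dy ++ a :: w) [])) z (Z (dz ++ a :: w) []) := by
        funext i
        by_cases h1 : i = z
        · subst h1; simp
        · by_cases h2 : i = y
          · subst h2; simp [Function.update_of_ne h1]
          · by_cases h3 : i = x
            · subst h3; simp [Function.update_of_ne h1, Function.update_of_ne h2]
            · simp [Function.update_of_ne h1, Function.update_of_ne h2, Function.update_of_ne h3]
      rw [e2] at hih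
      exact hih

/-- Rewinding the three tapes. -/
theorem fan_rewinds (x y z : ι) (hxy : x ≠ y) (hxz : x ≠ z) (hyz : y ≠ z) (s : St ι Γ)
    (w : List Γ) (hw : lend ∉ w)
    (hx : s x = Z w []) (hy : s y = Z w []) (hz : s z = Z w []) :
    (seq (rewind x) (seq (rewind y) (rewind z))).SRuns s (3 * w.length + 11)
      (Function.update (Function.update (Function.update s x (Z [] w)) y (Z [] w)) z (Z [] w))
      true := by
  have h1 := rewind_spec x s w [] hx hw (by simp)
  rw [List.append_nil] at h1
  have h2 := rewind_spec y (Function.update s x (Z [] w)) w []
    (by rw [Function.update_of_ne hxy.symm, hy]) hw (by simp)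
  rw [List.append_nil] at h2
  have h3 := rewind_spec z (Function.update (Function.update s x (Z [] w)) y (Z [] w)) w []
    (by rw [Function.update_of_ne hyz.symm, Function.update_of_ne hxz.symm, hz]) hw (by simp)
  rw [List.append_nil] at h3
  exact (seq_sruns h1 (seq_sruns h2 h3)).mono (by omega)

theorem fan_spec (x y z : ι) (hxy : x ≠ y) (hxz : x ≠ z) (hyz : y ≠ z) (s : St ι Γ) (w : List Γ)
    (hb : blank ∉ w) (hw : lend ∉ w)
    (hx : s x = Z [] w) (hy : s y = Z [] []) (hz : s z = Z [] []) :
    (fan x y z).SRuns s (4 * w.length + 20)
      (Function.update (Function.update s y (Z [] w)) z (Z [] w)) true := by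
  have h1 := fan_scan x y z hxy hxz hyz w s [] [] [] hb hx hy hz
  simp only [List.nil_append] at h1
  have h2 := fan_rewinds x y z hxy hxz hyz _ w hw
    (show (Function.update (Function.update (Function.update s x (Z w [])) y (Z w [])) z
      (Z w [])) x = Z w [] by
      rw [Function.update_of_ne hxz, Function.update_of_ne hxy, Function.update_self])
    (by rw [Function.update_of_ne hyz, Function.update_self]) (by rw [Function.update_self])
  have e : Function.update (Function.update (Function.update (Function.update (Function.update
      (Function.update s x (Z w [])) y (Z w [])) z (Z w [])) x (Z [] w)) y (Z [] w)) z (Z [] w)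
      = Function.update (Function.update s y (Z [] w)) z (Z [] w) := by
    funext i
    by_cases g1 : i = z
    · subst g1; simp
    · by_cases g2 : i = y
      · subst g2; simp [Function.update_of_ne g1]
      · by_cases g3 : i = x
        · subst g3; simp [Function.update_of_ne g1, Function.update_of_ne g2, hx]
        · simp [Function.update_of_ne g1, Function.update_of_ne g2, Function.update_of_ne g3]
  rw [e] at h2
  exact (seq_sruns h1 h2).mono (by omega)

open Classical in
/-- The scan of `fanC`. -/
theorem fanC_scan (x y z c : ι) (hxy : x ≠ y) (hxz : x ≠ z) (hyz : y ≠ z) (hxc : x ≠ c)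
    (hyc : y ≠ c) (hzc : z ≠ c) (w : List Γ) :
    ∀ (s : St ι Γ) (dx dy dz dc : List Γ), blank ∉ w → s x = Z dx w → s y = Z dy [] →
    s z = Z dz [] → s c = Z dc [] →
    (scan fun a => if a x = blank then none else
      some ((((Instr.nil.set x (a x) Move.right).set y (a x) Move.right).set z (a x)
        Move.right).set c (bit true) Move.right) : Prog ι Γ).SRuns s w.length
      (Function.update (Function.update (Function.update (Function.update s x (Z (dx ++ w) [])) y
        (Z (dy ++ w) [])) z (Z (dz ++ w) [])) c (Z (dc ++ un w.length) [])) true := by
  induction w with
  | nil =>
    intro s dx dy dz dc _ hx hy hz hc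
    have hs : Function.update (Function.update (Function.update (Function.update s x
        (Z (dx ++ []) [])) y (Z (dy ++ []) [])) z (Z (dz ++ []) [])) c
        (Z (dc ++ un ([] : List Γ).length) []) = s := by
      funext i
      by_cases h0 : i = c
      · subst h0; simp [hc, un]
      · by_cases h1 : i = z
        · subst h1; simp [hz, Function.update_of_ne h0]
        · by_cases h2 : i = y
          · subst h2; simp [hy, Function.update_of_ne h0, Function.update_of_ne h1]
          · by_cases h3 : i = x
            · subst h3
              simp [hx, Function.update_of_ne h0, Function.update_of_ne h1,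
                Function.update_of_ne h2]
            · simp [Function.update_of_ne h0, Function.update_of_ne h1, Function.update_of_ne h2,
                Function.update_of_ne h3]
    rw [hs]
    apply scan_sstop
    simp [hx]
  | cons a w ih =>
    intro s dx dy dz dc hb hx hy hz hc
    have ha : a ≠ blank := fun h => hb (by simp [h])
    have hb' : blank ∉ w := fun h => hb (by simp [h])
    refine scan_sstep _ s ((((Instr.nil.set x a Move.right).set y a Move.right).set z a
      Move.right).set c (bit true) Move.right) ?_ ?_
    · simp [hx, ha]
    · have e1 : ((((Instr.nil.set x a Move.right).set y a Move.right).set z a Move.right).set c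
          (bit true) Move.right).sapp s =
          Function.update (Function.update (Function.update (Function.update s x
            (Z (dx ++ [a]) w)) y (Z (dy ++ [a]) [])) z (Z (dz ++ [a]) [])) c
            (Z (dc ++ [bit true]) []) := by
        simp [hx, hy, hz, hc]
      rw [e1]
      have hih := ih (Function.update (Function.update (Function.update (Function.update s x
        (Z (dx ++ [a]) w)) y (Z (dy ++ [a]) [])) z (Z (dz ++ [a]) [])) c
        (Z (dc ++ [bit true]) [])) (dx ++ [a]) (dy ++ [a]) (dz ++ [a]) (dc ++ [bit true]) hb'
        (by simp [Function.update_of_ne hxy, Function.update_of_ne hxz, Function.update_of_ne hxc])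
        (by simp [Function.update_of_ne hyz, Function.update_of_ne hyc])
        (by simp [Function.update_of_ne hzc]) (by simp)
      have hu : (un (a :: w).length : List Γ) = bit true :: un w.length := by
        simp [un, List.replicate_succ]
      have e2 : Function.update (Function.update (Function.update (Function.update
          (Function.update (Function.update (Function.update (Function.update s x
          (Z (dx ++ [a]) w)) y (Z (dy ++ [a]) [])) z (Z (dz ++ [a]) [])) c
          (Z (dc ++ [bit true]) [])) x (Z (dx ++ [a] ++ w) [])) y
          (Z (dy ++ [a] ++ w) [])) z (Z (dz ++ [a] ++ w) [])) c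
          (Z (dc ++ [bit true] ++ un w.length) []) =
          Function.update (Function.update (Function.update (Function.update s x
            (Z (dx ++ a :: w) [])) y (Z (dy ++ a :: w) [])) z (Z (dz ++ a :: w) [])) c
            (Z (dc ++ un (a :: w).length) []) := by
        rw [hu]
        funext i
        by_cases h0 : i = c
        · subst h0; simp
        · by_cases h1 : i = z
          · subst h1; simp [Function.update_of_ne h0]
          · by_cases h2 : i = y
            · subst h2; simp [Function.update_of_ne h0, Function.update_of_ne h1]
            · by_cases h3 : i = x
              · subst h3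
                simp [Function.update_of_ne h0, Function.update_of_ne h1,
                  Function.update_of_ne h2]
              · simp [Function.update_of_ne h0, Function.update_of_ne h1,
                  Function.update_of_ne h2, Function.update_of_ne h3]
      rw [e2] at hih
      exact hih

theorem fanC_spec (x y z c : ι) (hxy : x ≠ y) (hxz : x ≠ z) (hyz : y ≠ z) (hxc : x ≠ c)
    (hyc : y ≠ c) (hzc : z ≠ c) (s : St ι Γ) (w : List Γ) (E : ℕ)
    (hb : blank ∉ w) (hw : lend ∉ w)
    (hx : s x = Z [] w) (hy : s y = Z [] []) (hz : s z = Z [] []) (hc : s c = Z (un E) []) :
    (fanC x y z c).SRuns s (4 * w.length + 20)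
      (Function.update (Function.update (Function.update s y (Z [] w)) z (Z [] w))
        c (Z (un (E + w.length)) [])) true := by
  have h1 := fanC_scan x y z c hxy hxz hyz hxc hyc hzc w s [] [] [] (un E) hb hx hy hz hc
  simp only [List.nil_append] at h1
  have hun : (un E ++ un w.length : List Γ) = un (E + w.length) := by
    simp [un]
  rw [hun] at h1
  have h2 := fan_rewinds x y z hxy hxz hyz _ w hw
    (show (Function.update (Function.update (Function.update (Function.update s x (Z w [])) y
      (Z w [])) z (Z w [])) c (Z (un (E + w.length)) [])) x = Z w [] by
      rw [Function.update_of_ne hxc, Function.update_of_ne hxz, Function.update_of_ne hxy,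
        Function.update_self])
    (by rw [Function.update_of_ne hyc, Function.update_of_ne hyz, Function.update_self])
    (by rw [Function.update_of_ne hzc, Function.update_self])
  have e : Function.update (Function.update (Function.update (Function.update (Function.update
      (Function.update (Function.update s x (Z w [])) y (Z w [])) z (Z w [])) c
      (Z (un (E + w.length)) [])) x (Z [] w)) y (Z [] w)) z (Z [] w)
      = Function.update (Function.update (Function.update s y (Z [] w)) z (Z [] w))
        c (Z (un (E + w.length)) []) := by
    funext i
    by_cases g0 : i = c
    · subst g0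
      simp [Function.update_of_ne hxc.symm, Function.update_of_ne hyc.symm,
        Function.update_of_ne hzc.symm]
    · by_cases g1 : i = z
      · subst g1; simp [Function.update_of_ne g0]
      · by_cases g2 : i = y
        · subst g2; simp [Function.update_of_ne g0, Function.update_of_ne g1]
        · by_cases g3 : i = x
          · subst g3
            simp [Function.update_of_ne g0, Function.update_of_ne g1, Function.update_of_ne g2, hx]
          · simp [Function.update_of_ne g0, Function.update_of_ne g1, Function.update_of_ne g2,
              Function.update_of_ne g3]
  rw [e] at h2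
  exact (seq_sruns h1 h2).mono (by omega)

end Vale.Agent.P338.TM
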