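import Vale.Agent.P338.Duel.Defs2
import Vale.Agent.P338.TM.Timing2

/-!
The top levels of the schedule.  From `sched_step` (TM/Sched3):
`sched (K + 2) = opsDown (K + 2) ++ sched ((K + 3) / 2) ++ opsUp (K + 2)`, where the two lists
`opsDown`, `opsUp` have 7 elements together; `hal 0 = 0`, `hal 1 = 1`.
-/

namespace Vale.Agent.P338.TM

open Vale.Agent.P338

/-- The size of the next level. -/
def hal (K : ℕ) : ℕ := (K + 1) / 2

theorem hal_iter_le (R κ : ℕ) : hal^[R] κ ≤ κ / 2 ^ R + 1 := by
  induction R with
  | zero => simp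
  | succ R ih =>
    rw [Function.iterate_succ_apply', pow_succ, ← Nat.div_div_eq_div_mul]
    unfold hal at ih ⊢
    omega

/-- One level of the schedule. -/
private theorem sched_split_one (K : ℕ) :
    ∃ t : List Op, (sched K).Perm (t ++ sched (hal K)) ∧ t.length ≤ 7 := by
  match K with
  | 0 => exact ⟨[], by simp [hal], by simp⟩
  | 1 => exact ⟨[], by simp [hal], by simp⟩
  | K + 2 =>
    refine ⟨opsDown (K + 2) ++ opsUp (K + 2), ?_, by simp [opsDown, opsUp, opsX]⟩
    have h : hal (K + 2) = (K + 3) / 2 := rfl
    rw [sched_step, h, List.append_assoc, List.append_assoc]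
    exact List.Perm.append_left _ List.perm_append_comm

theorem sched_split (R κ : ℕ) :
    ∃ top : List Op, (sched κ).Perm (top ++ sched (hal^[R] κ)) ∧ top.length ≤ 7 * R := by
  induction R with
  | zero => exact ⟨[], by simp, by simp⟩
  | succ R ih =>
    obtain ⟨top, h1, h2⟩ := ih
    obtain ⟨t, h3, h4⟩ := sched_split_one (hal^[R] κ)
    refine ⟨top ++ t, ?_, ?_⟩
    · rw [Function.iterate_succ_apply', List.append_assoc]
      exact h1.trans (List.Perm.append_left _ h3)
    · rw [List.length_append]
      omega

end Vale.Agent.P338.TM
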