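import Vale.Agent.P338.Duel.TimingD1
import Vale.Agent.P338.Duel.TimingD2

/-!
Running time of the second machine: the main inequality.  Pure arithmetic.

Let `C` be the constant of `cDuel_le`, `sched κ ~ top ++ sched κ'` with `κ' = hal^[R] κ ≤ κ / 2^R + 1`,
`top.length ≤ 7 * R` (`sched_split`; sums over lists: `List.Perm.sum_eq`, `List.Perm.map`).
Every `op ∈ sched κ` has `OkOp (2κ) op` (`sched_ok'`), `jj op ≤ 2κ`, `1 ≤ nA op ≤ 520 * 2^(jj op) ≤ 520 * 4^κ`.
* `op ∈ top`: `min .. ≤ 2^(2κ - jj op) * tA (nA op) ≤ 2^(2κ - jj op) * (μ * (520 * 2^(jj op))) = 520 * μ * 4^κ`;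
* `op ∈ sched κ'`: `min .. ≤ (jj op + 1) * 4^κ`, and `∑ jj op ≤ 42 * κ'` (`sched_wsum_le`),
  `(sched κ').length ≤ (sched κ).length ≤ 7 * Nat.log 2 κ + 8` (`sched_length_le`).
-/

namespace Vale.Agent.P338.TM

open Vale.Agent.P338

/-- A sum of terms with an affine bound. -/
theorem sum_map_le_affine {α : Type} (f g : α → ℕ) (A B : ℕ) (l : List α)
    (h : ∀ x ∈ l, f x ≤ A + B * g x) :
    (l.map f).sum ≤ l.length * A + B * (l.map g).sum := by
  induction l with
  | nil => simp
  | cons a t ih =>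
    have h1 := h a (by simp)
    have h2 := ih (fun x hx => h x (by simp [hx]))
    simp only [List.map_cons, List.sum_cons, List.length_cons]
    calc f a + (t.map f).sum ≤ (A + B * g a) + (t.length * A + B * (t.map g).sum) :=
          Nat.add_le_add h1 h2
      _ = (t.length + 1) * A + B * (g a + (t.map g).sum) := by ring

/-- A sum of bounded terms. -/
theorem sum_map_le_const {α : Type} (f : α → ℕ) (A : ℕ) (l : List α)
    (h : ∀ x ∈ l, f x ≤ A) : (l.map f).sum ≤ l.length * A := by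
  have := sum_map_le_affine f (fun _ => 0) A 0 l (fun x hx => by simpa using h x hx)
  simpa using this

/-- The first argument of the minimum, for an operation of the schedule. -/
theorem first_arg_le (tA : ℕ → ℕ) (κ μ : ℕ) (op : Op) (hj : jj op ≤ 2 * κ)
    (htA : ∀ m, 1 ≤ m → m ≤ 520 * 4 ^ κ → tA m ≤ μ * m) :
    2 ^ (2 * κ - jj op) * tA (nA op) ≤ 520 * μ * 4 ^ κ := by
  have h4 : (4 : ℕ) ^ κ = 2 ^ (2 * κ) := by
    rw [pow_mul]; norm_num
  have hsplit : (2 : ℕ) ^ (2 * κ - jj op) * 2 ^ jj op = 4 ^ κ := by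
    rw [h4, ← pow_add]
    congr 1
    omega
  have hn := nA_le op
  have hpow : (2 : ℕ) ^ jj op ≤ 4 ^ κ := by
    rw [h4]
    exact Nat.pow_le_pow_right (by norm_num) hj
  have hn2 : nA op ≤ 520 * 4 ^ κ := le_trans hn (Nat.mul_le_mul_left _ hpow)
  have ht := htA (nA op) (nA_pos op) hn2
  calc 2 ^ (2 * κ - jj op) * tA (nA op)
      ≤ 2 ^ (2 * κ - jj op) * (μ * (520 * 2 ^ jj op)) :=
        Nat.mul_le_mul_left _ (le_trans ht (Nat.mul_le_mul_left _ hn))
    _ = 520 * μ * (2 ^ (2 * κ - jj op) * 2 ^ jj op) := by ring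
    _ = 520 * μ * 4 ^ κ := by rw [hsplit]

theorem cInterpD_le : ∃ C : ℕ, ∀ (tA : ℕ → ℕ) (κ R μ : ℕ),
    (∀ m, 1 ≤ m → m ≤ 520 * 4 ^ κ → tA m ≤ μ * m) →
    cInterpD tA (2 * κ) (sched κ) ≤ C * (4 ^ κ * (Nat.log 2 κ + R * μ + κ / 2 ^ R + 1)) := by
  obtain ⟨C, hC⟩ := cDuel_le
  refine ⟨3640 * C + 2, ?_⟩
  intro tA κ R μ htA
  obtain ⟨top, hperm, htop⟩ := sched_split R κ
  have hlen : top.length + (sched (hal^[R] κ)).length ≤ 7 * Nat.log 2 κ + 8 := by
    have h1 := hperm.length_eq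
    rw [List.length_append] at h1
    have h2 := sched_length_le κ
    omega
  have hk' := hal_iter_le R κ
  have hw := sched_wsum_le (hal^[R] κ)
  have hmemtop : ∀ op ∈ top, op ∈ sched κ := fun op h =>
    hperm.mem_iff.mpr (List.mem_append.mpr (Or.inl h))
  have hmemlow : ∀ op ∈ sched (hal^[R] κ), op ∈ sched κ := fun op h =>
    hperm.mem_iff.mpr (List.mem_append.mpr (Or.inr h))
  unfold cInterpD
  rw [(hperm.map _).sum_eq, List.map_append, List.sum_append]
  have e1 : (top.map fun op => cDuel tA (2 * κ) op + 10 * (op.1 + op.2.1 + op.2.2) + 60).sum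
      ≤ top.length * (C * 4 ^ κ + C * (520 * μ * 4 ^ κ)) := by
    apply sum_map_le_const
    intro op hop
    have hok := sched_ok' κ op (hmemtop op hop)
    have hj : jj op ≤ 2 * κ := hok.2
    refine le_trans (hC tA κ op hok) ?_
    apply Nat.add_le_add_left
    apply Nat.mul_le_mul_left
    exact le_trans (min_le_left _ _) (first_arg_le tA κ μ op hj htA)
  have e2 : ((sched (hal^[R] κ)).map
      fun op => cDuel tA (2 * κ) op + 10 * (op.1 + op.2.1 + op.2.2) + 60).sum
      ≤ (sched (hal^[R] κ)).length * (2 * C * 4 ^ κ)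
        + (C * 4 ^ κ) * ((sched (hal^[R] κ)).map jj).sum := by
    apply sum_map_le_affine
    intro op hop
    have hok := sched_ok' κ op (hmemlow op hop)
    refine le_trans (hC tA κ op hok) ?_
    calc C * 4 ^ κ + C * min (2 ^ (2 * κ - jj op) * tA (nA op)) ((jj op + 1) * 4 ^ κ)
        ≤ C * 4 ^ κ + C * ((jj op + 1) * 4 ^ κ) :=
          Nat.add_le_add_left (Nat.mul_le_mul_left _ (min_le_right _ _)) _
      _ = 2 * C * 4 ^ κ + C * 4 ^ κ * jj op := by ring
  have hP : 1 ≤ 4 ^ κ := Nat.one_le_pow _ _ (by norm_num)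
  generalize (sched (hal^[R] κ)).length = b at *
  generalize ((sched (hal^[R] κ)).map jj).sum = w at *
  generalize top.length = a at *
  generalize hal^[R] κ = k' at *
  generalize Nat.log 2 κ = L at *
  generalize κ / 2 ^ R = q at *
  generalize (4 : ℕ) ^ κ = P at *
  have f1 : a * (C * P + C * (520 * μ * P)) ≤ a * (C * P) + 7 * R * (C * (520 * μ * P)) := by
    rw [Nat.mul_add]
    exact Nat.add_le_add_left (Nat.mul_le_mul_right _ htop) _
  have f2 : C * P * w ≤ C * P * (42 * (q + 1)) :=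
    Nat.mul_le_mul_left _ (le_trans hw (Nat.mul_le_mul_left _ hk'))
  have f3 : a * (C * P) + b * (2 * C * P) ≤ 2 * (7 * L + 8) * (C * P) := by
    calc a * (C * P) + b * (2 * C * P) ≤ 2 * (a + b) * (C * P) := by
          have : a * (C * P) ≤ 2 * a * (C * P) := Nat.mul_le_mul_right _ (by omega)
          calc a * (C * P) + b * (2 * C * P) ≤ 2 * a * (C * P) + b * (2 * C * P) :=
                Nat.add_le_add_right this _
            _ = 2 * (a + b) * (C * P) := by ring
      _ ≤ 2 * (7 * L + 8) * (C * P) :=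
          Nat.mul_le_mul_right _ (Nat.mul_le_mul_left _ hlen)
  have f4 : 2 ≤ 2 * P := by omega
  calc _ ≤ a * (C * P + C * (520 * μ * P)) + (b * (2 * C * P) + C * P * w) + 2 :=
        Nat.add_le_add_right (Nat.add_le_add e1 e2) _
    _ ≤ (a * (C * P) + 7 * R * (C * (520 * μ * P))) + (b * (2 * C * P) + C * P * (42 * (q + 1)))
          + 2 * P :=
        Nat.add_le_add (Nat.add_le_add f1 (Nat.add_le_add_left f2 _)) f4
    _ = (a * (C * P) + b * (2 * C * P)) + 7 * R * (C * (520 * μ * P)) + C * P * (42 * (q + 1))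
          + 2 * P := by ring
    _ ≤ 2 * (7 * L + 8) * (C * P) + 7 * R * (C * (520 * μ * P)) + C * P * (42 * (q + 1))
          + 2 * P := by
        apply Nat.add_le_add_right
        apply Nat.add_le_add_right
        exact Nat.add_le_add_right f3 _
    _ = C * P * (14 * L + 3640 * (R * μ) + 42 * q + 58) + 2 * P := by ring
    _ ≤ C * P * (3640 * (L + R * μ + q + 1)) + 2 * (P * (L + R * μ + q + 1)) := by
        apply Nat.add_le_add
        · apply Nat.mul_le_mul_left
          omega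
        · apply Nat.mul_le_mul_left
          exact Nat.le_mul_of_pos_right _ (by omega)
    _ = (3640 * C + 2) * (P * (L + R * μ + q + 1)) := by ring

theorem cMainD_le : ∃ C : ℕ, ∀ (tA : ℕ → ℕ) (n R μ : ℕ),
    (∀ m, 1 ≤ m → m ≤ 520 * 4 ^ clog n → tA m ≤ μ * m) →
    cMainD tA n ≤ C * (4 ^ clog n * (Nat.log 2 (clog n) + R * μ + clog n / 2 ^ R + 1)) := by
  obtain ⟨C, hC⟩ := cInterpD_le
  refine ⟨C + 7300, ?_⟩
  intro tA n R μ htA
  have h := hC tA (clog n) R μ htA
  unfold cMainD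
  rw [two_pow_mul_self]
  have h1 := succ_le_four_pow (clog n)
  have hP : 1 ≤ 4 ^ clog n := Nat.one_le_pow _ _ (by norm_num)
  generalize cInterpD tA (2 * clog n) (sched (clog n)) = X at *
  generalize Nat.log 2 (clog n) + R * μ + clog n / 2 ^ R = S at *
  generalize (4 : ℕ) ^ clog n = P at *
  have h2 : P ≤ P * (S + 1) := Nat.le_mul_of_pos_right _ (by omega)
  calc X + 300 * P + 5000 * (clog n + 1) + 2000 ≤ C * (P * (S + 1)) + 7300 * P := by omega
    _ ≤ C * (P * (S + 1)) + 7300 * (P * (S + 1)) :=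
        Nat.add_le_add_left (Nat.mul_le_mul_left _ h2) _
    _ = (C + 7300) * (P * (S + 1)) := by ring

end Vale.Agent.P338.TM
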