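import Mathlib

/-!
From the main inequality to the lower bound.  Pure real analysis, no machines.

`omega_kappa`.  Put `L = Real.log 2`.  For large `κ`: `c0 * 4^κ * κ * L ≤ tB (2^κ)`.  Choose `R` with
`C / 2^R ≤ c0 * L / 8` and `c = c0 * L / (8 * C * (R + 1))` (if `C = 0` everything is trivial).
If for some large `κ` every `m` with `1 ≤ m ≤ 520 * 4^κ` had `tA m < c * (m * κ)`, then `hM` with
`μ = ⌈c * κ⌉₊ ≤ c * κ + 1` gives
`c0 * κ * L ≤ C * (Nat.log 2 κ + R * (c * κ + 1) + κ / 2^R + 1)`, which is false for large `κ`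
because `Nat.log 2 κ = o(κ)`.

`omega_of_kappa`.  For large `n` take `κ = Nat.log 4 (n / 520)`: `520 * 4^κ ≤ n < 520 * 4^(κ+1)`,
`κ → ∞`, `Real.log n ≤ 7 + (κ + 1) * Real.log 4 ≤ 3 * κ`.
-/

namespace Vale.Agent.P338.TM

/-- `Nat.log 2 κ` is eventually at most `a * κ - b` -/
private theorem natLog_small (a b : ℝ) (ha : 0 < a) :
    ∀ᶠ κ : ℕ in Filter.atTop, (Nat.log 2 κ : ℝ) + b ≤ a * (κ : ℝ) := by
  have hL : 0 < Real.log 2 := Real.log_pos (by norm_num)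
  have h1 : (fun κ : ℕ => Real.log (κ : ℝ)) =o[Filter.atTop] (fun κ : ℕ => (κ : ℝ)) :=
    Real.isLittleO_log_id_atTop.comp_tendsto tendsto_natCast_atTop_atTop
  have h2 := h1.bound (show 0 < a / 2 * Real.log 2 by positivity)
  have h3 : ∀ᶠ κ : ℕ in Filter.atTop, b ≤ a / 2 * (κ : ℝ) := by
    have : Filter.Tendsto (fun κ : ℕ => a / 2 * (κ : ℝ)) Filter.atTop Filter.atTop :=
      Filter.Tendsto.const_mul_atTop (by positivity) tendsto_natCast_atTop_atTop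
    exact this.eventually_ge_atTop b
  filter_upwards [h2, h3] with κ hκ hb
  have h4 : (Nat.log 2 κ : ℝ) ≤ Real.logb 2 κ := by
    have := Real.natLog_le_logb κ 2
    simpa using this
  have h5 : Real.logb 2 κ ≤ a / 2 * (κ : ℝ) := by
    rw [Real.logb, div_le_iff₀ hL]
    have h6 : Real.log (κ : ℝ) ≤ ‖Real.log (κ : ℝ)‖ := Real.le_norm_self _
    have h7 : ‖(κ : ℝ)‖ = (κ : ℝ) := by simp
    rw [h7] at hκ
    nlinarith
  linarith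

theorem omega_kappa (tA tB : ℕ → ℕ) (C : ℕ)
    (hM : ∀ κ R μ : ℕ, (∀ m, 1 ≤ m → m ≤ 520 * 4 ^ κ → tA m ≤ μ * m) →
      tB (2 ^ κ) ≤ C * (4 ^ κ * (Nat.log 2 κ + R * μ + κ / 2 ^ R + 1)))
    (c0 : ℝ) (hc0 : 0 < c0)
    (hB : ∀ᶠ n : ℕ in Filter.atTop, c0 * ((n : ℝ) ^ 2 * Real.log n) ≤ (tB n : ℝ)) :
    ∃ c : ℝ, 0 < c ∧ ∀ᶠ κ : ℕ in Filter.atTop,
      ∃ m : ℕ, 1 ≤ m ∧ m ≤ 520 * 4 ^ κ ∧ c * ((m : ℝ) * (κ : ℝ)) ≤ (tA m : ℝ) := by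
  have hL : 0 < Real.log 2 := Real.log_pos (by norm_num)
  obtain ⟨D, hDdef⟩ : ∃ D : ℝ, D = (C : ℝ) + 1 := ⟨_, rfl⟩
  have hD : 0 < D := by rw [hDdef]; positivity
  have hCD : (C : ℝ) ≤ D := by rw [hDdef]; linarith
  -- choice of `R`
  obtain ⟨R, hR⟩ : ∃ R : ℕ, D / (2 : ℝ) ^ R ≤ c0 * Real.log 2 / 8 := by
    have ht : Filter.Tendsto (fun R : ℕ => (2 : ℝ) ^ R) Filter.atTop Filter.atTop :=
      tendsto_pow_atTop_atTop_of_one_lt (by norm_num)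
    obtain ⟨R, hR⟩ := (ht.eventually_ge_atTop (D / (c0 * Real.log 2 / 8))).exists
    refine ⟨R, ?_⟩
    have h2 : (0 : ℝ) < (2 : ℝ) ^ R := by positivity
    have h3 : 0 < c0 * Real.log 2 / 8 := by positivity
    rw [div_le_iff₀ h3] at hR
    rw [div_le_iff₀ h2]
    linarith
  obtain ⟨c, hcdef⟩ : ∃ c : ℝ, c = c0 * Real.log 2 / (8 * D * ((R : ℝ) + 1)) := ⟨_, rfl⟩
  have hR0 : (0 : ℝ) ≤ (R : ℝ) := Nat.cast_nonneg R
  have hc : 0 < c := by rw [hcdef]; positivity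
  have hcR : D * ((R : ℝ) * c) ≤ c0 * Real.log 2 / 8 := by
    have h1 : D * (((R : ℝ) + 1) * c) = c0 * Real.log 2 / 8 := by
      rw [hcdef]; field_simp
    have h2 : D * ((R : ℝ) * c) ≤ D * (((R : ℝ) + 1) * c) := by
      apply mul_le_mul_of_nonneg_left _ hD.le
      nlinarith
    linarith
  refine ⟨c, hc, ?_⟩
  have hB' : ∀ᶠ κ : ℕ in Filter.atTop,
      c0 * (((2 ^ κ : ℕ) : ℝ) ^ 2 * Real.log ((2 ^ κ : ℕ) : ℝ)) ≤ (tB (2 ^ κ) : ℝ) :=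
    (tendsto_pow_atTop_atTop_of_one_lt (by norm_num : 1 < 2)).eventually hB
  have hsmall := natLog_small (c0 * Real.log 2 / (2 * D)) ((R : ℝ) + 1) (by positivity)
  filter_upwards [hB', hsmall, Filter.eventually_ge_atTop 1] with κ hκB hκs hκ1
  by_contra hcon
  push Not at hcon
  have hκpos : (0 : ℝ) < (κ : ℝ) := by exact_mod_cast hκ1
  have hμ : ∀ m, 1 ≤ m → m ≤ 520 * 4 ^ κ → tA m ≤ ⌈c * (κ : ℝ)⌉₊ * m := by
    intro m hm1 hm2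
    have h1 := hcon m hm1 hm2
    have h2 : c * (κ : ℝ) ≤ (⌈c * (κ : ℝ)⌉₊ : ℝ) := Nat.le_ceil _
    have h3 : (tA m : ℝ) ≤ ((⌈c * (κ : ℝ)⌉₊ * m : ℕ) : ℝ) := by
      push_cast
      have hm0 : (0 : ℝ) ≤ (m : ℝ) := Nat.cast_nonneg m
      nlinarith
    exact_mod_cast h3
  have h1 := hM κ R _ hμ
  have h2 : (tB (2 ^ κ) : ℝ) ≤ (C : ℝ) * ((4 : ℝ) ^ κ * ((Nat.log 2 κ : ℝ)
      + (R : ℝ) * (⌈c * (κ : ℝ)⌉₊ : ℝ) + ((κ / 2 ^ R : ℕ) : ℝ) + 1)) := by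
    exact_mod_cast h1
  have h3 : (⌈c * (κ : ℝ)⌉₊ : ℝ) ≤ c * (κ : ℝ) + 1 :=
    (Nat.ceil_lt_add_one (by positivity)).le
  have h4 : ((κ / 2 ^ R : ℕ) : ℝ) ≤ (κ : ℝ) / (2 : ℝ) ^ R := by
    have := Nat.cast_div_le (α := ℝ) (m := κ) (n := 2 ^ R)
    simpa using this
  have h4pow : (0 : ℝ) < (4 : ℝ) ^ κ := by positivity
  have hX : (Nat.log 2 κ : ℝ) + (R : ℝ) * (⌈c * (κ : ℝ)⌉₊ : ℝ) + ((κ / 2 ^ R : ℕ) : ℝ) + 1
      ≤ (Nat.log 2 κ : ℝ) + (R : ℝ) * (c * (κ : ℝ) + 1) + (κ : ℝ) / (2 : ℝ) ^ R + 1 := by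
    have := mul_le_mul_of_nonneg_left h3 hR0
    linarith
  have hX0 : 0 ≤ (Nat.log 2 κ : ℝ) + (R : ℝ) * (⌈c * (κ : ℝ)⌉₊ : ℝ)
      + ((κ / 2 ^ R : ℕ) : ℝ) + 1 := by positivity
  have h5 : (tB (2 ^ κ) : ℝ) ≤ D * ((4 : ℝ) ^ κ * ((Nat.log 2 κ : ℝ)
      + (R : ℝ) * (c * (κ : ℝ) + 1) + (κ : ℝ) / (2 : ℝ) ^ R + 1)) := by
    refine le_trans h2 ?_
    refine mul_le_mul hCD ?_ (by positivity) hD.le
    exact mul_le_mul_of_nonneg_left hX h4pow.le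
  have h6 : c0 * (((2 ^ κ : ℕ) : ℝ) ^ 2 * Real.log ((2 ^ κ : ℕ) : ℝ))
      = (4 : ℝ) ^ κ * (c0 * ((κ : ℝ) * Real.log 2)) := by
    push_cast
    rw [Real.log_pow, ← pow_mul, mul_comm κ 2, pow_mul]
    norm_num
    ring
  rw [h6] at hκB
  have h7 : (4 : ℝ) ^ κ * (c0 * ((κ : ℝ) * Real.log 2)) ≤ (4 : ℝ) ^ κ * (D * ((Nat.log 2 κ : ℝ)
      + (R : ℝ) * (c * (κ : ℝ) + 1) + (κ : ℝ) / (2 : ℝ) ^ R + 1)) := by
    calc (4 : ℝ) ^ κ * (c0 * ((κ : ℝ) * Real.log 2)) ≤ (tB (2 ^ κ) : ℝ) := hκB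
      _ ≤ _ := h5
      _ = _ := by ring
  have h8 := le_of_mul_le_mul_left h7 h4pow
  -- the three pieces
  have e1 : D * ((R : ℝ) * (c * (κ : ℝ))) ≤ c0 * Real.log 2 / 8 * (κ : ℝ) := by
    have := mul_le_mul_of_nonneg_right hcR hκpos.le
    calc D * ((R : ℝ) * (c * (κ : ℝ))) = D * ((R : ℝ) * c) * (κ : ℝ) := by ring
      _ ≤ _ := this
  have e2 : D * ((κ : ℝ) / (2 : ℝ) ^ R) ≤ c0 * Real.log 2 / 8 * (κ : ℝ) := by
    have := mul_le_mul_of_nonneg_right hR hκpos.le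
    calc D * ((κ : ℝ) / (2 : ℝ) ^ R) = D / (2 : ℝ) ^ R * (κ : ℝ) := by ring
      _ ≤ _ := this
  have e3 : D * ((Nat.log 2 κ : ℝ) + ((R : ℝ) + 1)) ≤ c0 * Real.log 2 / 2 * (κ : ℝ) := by
    have := mul_le_mul_of_nonneg_left hκs hD.le
    calc D * ((Nat.log 2 κ : ℝ) + ((R : ℝ) + 1))
        ≤ D * (c0 * Real.log 2 / (2 * D) * (κ : ℝ)) := this
      _ = c0 * Real.log 2 / 2 * (κ : ℝ) := by field_simp
  have e4 : 0 < c0 * Real.log 2 * (κ : ℝ) := by positivity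
  nlinarith

theorem omega_of_kappa (tA : ℕ → ℕ) (c : ℝ) (hc : 0 < c)
    (h : ∀ᶠ κ : ℕ in Filter.atTop,
      ∃ m : ℕ, 1 ≤ m ∧ m ≤ 520 * 4 ^ κ ∧ c * ((m : ℝ) * (κ : ℝ)) ≤ (tA m : ℝ)) :
    ∀ᶠ n : ℕ in Filter.atTop,
      ∃ m : ℕ, 1 ≤ m ∧ m ≤ n ∧ c / 3 * ((m : ℝ) * Real.log n) ≤ (tA m : ℝ) := by
  have hk : Filter.Tendsto (fun n : ℕ => Nat.log 4 (n / 520)) Filter.atTop Filter.atTop := by
    apply Filter.tendsto_atTop_atTop.2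
    intro b
    refine ⟨520 * 4 ^ b, fun n hn => ?_⟩
    have h1 : 4 ^ b ≤ n / 520 := by
      rw [Nat.le_div_iff_mul_le (by norm_num)]
      linarith
    exact Nat.le_log_of_pow_le (by norm_num) h1
  have h2 := hk.eventually (h.and (Filter.eventually_ge_atTop 6))
  filter_upwards [h2, Filter.eventually_ge_atTop 520] with n hn hn520
  obtain ⟨⟨m, hm1, hm2, hm3⟩, hk6⟩ := hn
  have hq : n / 520 ≠ 0 := by
    have : 1 ≤ n / 520 := by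
      rw [Nat.le_div_iff_mul_le (by norm_num)]
      linarith
    omega
  have hlow : 4 ^ Nat.log 4 (n / 520) ≤ n / 520 := Nat.pow_log_le_self 4 hq
  have hup : n / 520 < 4 ^ (Nat.log 4 (n / 520) + 1) := Nat.lt_pow_succ_log_self (by norm_num) _
  generalize Nat.log 4 (n / 520) = κ at *
  have hlow' : 520 * 4 ^ κ ≤ n := by
    have := (Nat.le_div_iff_mul_le (by norm_num : 0 < 520)).1 hlow
    linarith
  have hup' : n < 520 * 4 ^ (κ + 1) := by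
    have := (Nat.div_lt_iff_lt_mul (by norm_num : 0 < 520)).1 hup
    linarith
  refine ⟨m, hm1, hm2.trans hlow', ?_⟩
  have hnpos : (0 : ℝ) < n := by
    have : 0 < n := by omega
    exact_mod_cast this
  have hlog : Real.log n ≤ 3 * κ := by
    have h3 : (n : ℝ) ≤ 520 * 4 ^ (κ + 1) := by exact_mod_cast hup'.le
    have h4 : Real.log n ≤ Real.log (520 * 4 ^ (κ + 1)) := Real.log_le_log hnpos h3
    rw [Real.log_mul (by norm_num) (by positivity), Real.log_pow] at h4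
    have h5 : Real.log 520 ≤ 7 := by
      rw [Real.log_le_iff_le_exp (by norm_num)]
      have h6 : (2.7 : ℝ) ≤ Real.exp 1 := by
        have := Real.exp_one_gt_d9
        linarith
      have h7 : Real.exp 7 = Real.exp 1 ^ 7 := by
        rw [← Real.exp_nat_mul]; norm_num
      rw [h7]
      calc (520 : ℝ) ≤ 2.7 ^ 7 := by norm_num
        _ ≤ Real.exp 1 ^ 7 := by gcongr
    have h8 : Real.log 4 ≤ 1.4 := by
      have : Real.log 4 = 2 * Real.log 2 := by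
        rw [show (4 : ℝ) = 2 ^ 2 by norm_num, Real.log_pow]; norm_num
      rw [this]
      have := Real.log_two_lt_d9
      linarith
    have h9 : (6 : ℝ) ≤ κ := by exact_mod_cast hk6
    push_cast at h4
    nlinarith
  have hm0 : (0 : ℝ) ≤ m := Nat.cast_nonneg m
  calc c / 3 * ((m : ℝ) * Real.log n) ≤ c / 3 * ((m : ℝ) * (3 * κ)) := by gcongr
    _ = c * ((m : ℝ) * (κ : ℝ)) := by ring
    _ ≤ _ := hm3

end Vale.Agent.P338.TM
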