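import Vale.Agent.P338.Duel.MainDSpec
import Vale.Agent.P338.Duel.TimingD3
import Vale.Agent.P338.Duel.TimingD4

/-! The theorems on the second machine. -/

namespace Vale.Agent.P338.TM

open Vale.Agent.P338

theorem four_pow_clog_le (n : ℕ) (hn : 1 ≤ n) : 4 ^ Nat.clog 2 n ≤ 4 * n ^ 2 := by
  have h1 : 2 ^ Nat.clog 2 n ≤ 2 * n := by
    rcases Nat.lt_or_ge 1 n with h | h
    · have h2 := Nat.pow_pred_clog_lt_self (b := 2) (by norm_num) h
      have h3 : 0 < Nat.clog 2 n := Nat.clog_pos (by norm_num) h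
      obtain ⟨j, hj⟩ : ∃ j, Nat.clog 2 n = j + 1 := ⟨Nat.clog 2 n - 1, by omega⟩
      rw [hj] at h2 ⊢
      simp only [Nat.pred_succ] at h2
      rw [pow_succ]
      omega
    · have : n = 1 := by omega
      subst this
      simp
  calc 4 ^ Nat.clog 2 n = (2 ^ Nat.clog 2 n) ^ 2 := by
        rw [← pow_mul, mul_comm, pow_mul]; norm_num
    _ ≤ (2 * n) ^ 2 := Nat.pow_le_pow_left h1 2
    _ = 4 * n ^ 2 := by ring

theorem clog_le_log_succ (n : ℕ) : Nat.clog 2 n ≤ Nat.log 2 n + 1 :=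
  Nat.clog_le_of_le_pow (Nat.lt_pow_succ_log_self (by norm_num) n).le

/-- The quantitative reduction. -/
theorem transposer_master (k : ℕ) [NeZero k] (A : Machine k) (hA : A.Multiplies) :
    ∃ (K : ℕ) (_ : NeZero K) (B : Machine K), (∀ n : ℕ, 1 ≤ n → B.TransposesAt n) ∧
      ∃ C : ℕ, ∀ n R μ : ℕ, 1 ≤ n →
        (∀ m : ℕ, 1 ≤ m → m ≤ 2080 * n ^ 2 → A.worstTime m ≤ μ * m) →
        B.transTime n ≤
          C * (n ^ 2 * (Nat.log 2 (Nat.log 2 n + 1) + R * μ + (Nat.log 2 n + 1) / 2 ^ R + 1)) := by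
  obtain ⟨C, hC⟩ := cMainD_le
  refine ⟨bigK2 k, inferInstance, machD A, fun n hn => machD_transposes A hA n hn, 4 * C, ?_⟩
  intro n R μ hn hμ
  have h4 := four_pow_clog_le n hn
  have hl := clog_le_log_succ n
  have h1 := hC A.worstTime n R μ (fun m hm1 hm2 => hμ m hm1 (by
    have : clog n = Nat.clog 2 n := rfl
    rw [this] at hm2
    omega))
  have e : clog n = Nat.clog 2 n := rfl
  rw [e] at h1
  refine (machD_time A hA n hn).trans (h1.trans ?_)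
  have h2 : Nat.log 2 (Nat.clog 2 n) ≤ Nat.log 2 (Nat.log 2 n + 1) := Nat.log_mono_right hl
  have h3 : Nat.clog 2 n / 2 ^ R ≤ (Nat.log 2 n + 1) / 2 ^ R := Nat.div_le_div_right hl
  calc C * (4 ^ Nat.clog 2 n * (Nat.log 2 (Nat.clog 2 n) + R * μ + Nat.clog 2 n / 2 ^ R + 1))
      ≤ C * (4 * n ^ 2 * (Nat.log 2 (Nat.log 2 n + 1) + R * μ + (Nat.log 2 n + 1) / 2 ^ R + 1)) := by
        apply Nat.mul_le_mul_left
        apply Nat.mul_le_mul h4
        omega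
    _ = 4 * C * (n ^ 2 * (Nat.log 2 (Nat.log 2 n + 1) + R * μ + (Nat.log 2 n + 1) / 2 ^ R + 1)) := by
        ring

/-- If the second machine needs `c0 n^2 log n` steps for all large `n`, then for all large `n` the
multiplier needs `c m log n` steps for some `m ≤ n`. -/
theorem omega_of_machD (k : ℕ) [NeZero k] (A : Machine k) (hA : A.Multiplies) (c0 : ℝ)
    (hc0 : 0 < c0)
    (hB : ∀ᶠ n : ℕ in Filter.atTop,
      c0 * ((n : ℝ) ^ 2 * Real.log n) ≤ ((machD A).transTime n : ℝ)) :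
    ∃ c : ℝ, 0 < c ∧ ∀ᶠ n : ℕ in Filter.atTop,
      ∃ m : ℕ, 1 ≤ m ∧ m ≤ n ∧ c * ((m : ℝ) * Real.log n) ≤ (A.worstTime m : ℝ) := by
  obtain ⟨C, hC⟩ := cMainD_le
  obtain ⟨c, hc, h⟩ := omega_kappa A.worstTime (machD A).transTime C (by
    intro κ R μ hμ
    have e : clog (2 ^ κ) = κ := Nat.clog_pow 2 κ (by norm_num)
    have h1 := hC A.worstTime (2 ^ κ) R μ (by rw [e]; exact hμ)
    rw [e] at h1
    exact (machD_time A hA (2 ^ κ) Nat.one_le_two_pow).trans h1) c0 hc0 hB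
  exact ⟨c / 3, by positivity, omega_of_kappa A.worstTime c hc h⟩

/-- The conditional lower bound. -/
theorem omega_conditional
    (hard : ∀ (K : ℕ) [NeZero K] (B : Machine K), (∀ n : ℕ, 1 ≤ n → B.TransposesAt n) →
      ∃ c : ℝ, 0 < c ∧ ∀ᶠ n : ℕ in Filter.atTop,
        c * ((n : ℝ) ^ 2 * Real.log n) ≤ (B.transTime n : ℝ))
    (k : ℕ) [NeZero k] (A : Machine k) (hA : A.Multiplies) :
    ∃ c : ℝ, 0 < c ∧ ∀ᶠ n : ℕ in Filter.atTop,
      ∃ m : ℕ, 1 ≤ m ∧ m ≤ n ∧ c * ((m : ℝ) * Real.log n) ≤ (A.worstTime m : ℝ) := by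
  obtain ⟨c0, hc0, hB⟩ := hard (bigK2 k) (machD A) (fun n hn => machD_transposes A hA n hn)
  exact omega_of_machD k A hA c0 hc0 hB

/-- Under the usual regularity assumption the bound holds for all large `n`. -/
theorem omega_regular (tA : ℕ → ℕ) (c : ℝ)
    (h : ∀ᶠ n : ℕ in Filter.atTop,
      ∃ m : ℕ, 1 ≤ m ∧ m ≤ n ∧ c * ((m : ℝ) * Real.log n) ≤ (tA m : ℝ))
    (M : ℕ → ℝ) (hM : ∀ n, (tA n : ℝ) ≤ M n)
    (hreg : ∀ m n : ℕ, 1 ≤ m → m ≤ n → M m / m ≤ M n / n) :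
    ∀ᶠ n : ℕ in Filter.atTop, c * ((n : ℝ) * Real.log n) ≤ M n := by
  filter_upwards [h] with n hn
  obtain ⟨m, hm1, hmn, hm⟩ := hn
  have hm0 : (0 : ℝ) < m := by exact_mod_cast hm1
  have hn0 : (0 : ℝ) < n := by exact_mod_cast (le_trans hm1 hmn)
  have h1 : c * Real.log n ≤ M m / m := by
    rw [le_div_iff₀ hm0]
    calc c * Real.log n * m = c * ((m : ℝ) * Real.log n) := by ring
      _ ≤ tA m := hm
      _ ≤ M m := hM m
  have h2 := h1.trans (hreg m n hm1 hmn)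
  rw [le_div_iff₀ hn0] at h2
  calc c * ((n : ℝ) * Real.log n) = c * Real.log n * n := by ring
    _ ≤ M n := h2

end Vale.Agent.P338.TM
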