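import Vale.Agent.P338.Duel.Defs1
import Vale.Agent.P338.TM.Lift

/-! Programs on one of two families of tapes (model of the proofs: `liftO_sruns` in TM/Lift). -/

namespace Vale.Agent.P338.TM

open Vale.Agent.P338

variable {ι₁ ι₂ Γ : Type}

theorem liftR_step (P : Prog ι₂ Γ) (q : P.Q) (cA : Conf ι₁ Γ) (cO : Conf ι₂ Γ) :
    (liftR P : Prog (ι₁ ⊕ ι₂) Γ).step (q, Sum.elim cA cO)
      = (P.step (q, cO)).map fun y => (y.1, Sum.elim cA y.2) := by
  have hr : (fun x => reads (Sum.elim cA cO : Conf (ι₁ ⊕ ι₂) Γ) (Sum.inr x)) = reads cO := rfl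
  simp only [Prog.step, liftR, hr]
  cases P.δ q (reads cO) with
  | none => rfl
  | some r =>
    simp only [Option.map_some, Option.some.injEq, Prod.mk.injEq, true_and]
    funext i
    rcases i with i | x
    · exact Tp.act_read_stay (cA i)
    · rfl

theorem liftR_reach (P : Prog ι₂ Γ) (cA : Conf ι₁ Γ) {t : ℕ} {x y : P.Q × Conf ι₂ Γ}
    (h : P.Reach t x y) :
    (liftR P : Prog (ι₁ ⊕ ι₂) Γ).Reach t (x.1, Sum.elim cA x.2) (y.1, Sum.elim cA y.2) := by
  induction h with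
  | zero x => exact Prog.Reach.zero _
  | @succ t x y z hs _ ih =>
    refine Prog.Reach.succ (P := (liftR P : Prog (ι₁ ⊕ ι₂) Γ))
      (y := (y.1, Sum.elim cA y.2)) ?_ ih
    have := liftR_step P x.1 cA x.2
    rw [this]
    have hx : (x.1, x.2) = x := rfl
    rw [hx, hs]
    rfl

theorem liftL_step (P : Prog ι₁ Γ) (q : P.Q) (cA : Conf ι₁ Γ) (cO : Conf ι₂ Γ) :
    (liftL P : Prog (ι₁ ⊕ ι₂) Γ).step (q, Sum.elim cA cO)
      = (P.step (q, cA)).map fun y => (y.1, Sum.elim y.2 cO) := by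
  have hr : (fun x => reads (Sum.elim cA cO : Conf (ι₁ ⊕ ι₂) Γ) (Sum.inl x)) = reads cA := rfl
  simp only [Prog.step, liftL, hr]
  cases P.δ q (reads cA) with
  | none => rfl
  | some r =>
    simp only [Option.map_some, Option.some.injEq, Prod.mk.injEq, true_and]
    funext i
    rcases i with i | x
    · rfl
    · exact Tp.act_read_stay (cO x)

theorem liftL_reach (P : Prog ι₁ Γ) (cO : Conf ι₂ Γ) {t : ℕ} {x y : P.Q × Conf ι₁ Γ}
    (h : P.Reach t x y) :
    (liftL P : Prog (ι₁ ⊕ ι₂) Γ).Reach t (x.1, Sum.elim x.2 cO) (y.1, Sum.elim y.2 cO) := by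
  induction h with
  | zero x => exact Prog.Reach.zero _
  | @succ t x y z hs _ ih =>
    refine Prog.Reach.succ (P := (liftL P : Prog (ι₁ ⊕ ι₂) Γ))
      (y := (y.1, Sum.elim y.2 cO)) ?_ ih
    have := liftL_step P x.1 x.2 cO
    rw [this]
    have hx : (x.1, x.2) = x := rfl
    rw [hx, hs]
    rfl

variable [TapeAlpha Γ]

theorem conc_elim (sA : St ι₁ Γ) (sO : St ι₂ Γ) :
    conc (Sum.elim sA sO) = Sum.elim (conc sA) (conc sO) := by
  funext i
  rcases i with i | x <;> rfl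

theorem liftL_sruns {P : Prog ι₁ Γ} {s s' : St ι₁ Γ} {T : ℕ} {b : Bool}
    (h : P.SRuns s T s' b) (r : St ι₂ Γ) :
    (liftL P : Prog (ι₁ ⊕ ι₂) Γ).SRuns (Sum.elim s r) T (Sum.elim s' r) b := by
  obtain ⟨t, ht, q, hr, hs, hl⟩ := h
  refine ⟨t, ht, q, ?_, ?_, hl⟩
  · rw [conc_elim, conc_elim]
    exact liftL_reach P (conc r) hr
  · rw [conc_elim]
    have := liftL_step P q (conc s') (conc r)
    rw [this, hs]
    rfl

theorem liftR_sruns {P : Prog ι₂ Γ} {s s' : St ι₂ Γ} {T : ℕ} {b : Bool}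
    (h : P.SRuns s T s' b) (l : St ι₁ Γ) :
    (liftR P : Prog (ι₁ ⊕ ι₂) Γ).SRuns (Sum.elim l s) T (Sum.elim l s') b := by
  obtain ⟨t, ht, q, hr, hs, hl⟩ := h
  refine ⟨t, ht, q, ?_, ?_, hl⟩
  · rw [conc_elim, conc_elim]
    exact liftR_reach P (conc l) hr
  · rw [conc_elim]
    have := liftR_step P q (conc l) (conc s')
    rw [this, hs]
    rfl

end Vale.Agent.P338.TM
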