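import Vale.Agent.P338.Duel.DuelSpec
import Vale.Agent.P338.Duel.LiftLR
import Vale.Agent.P338.TM.SpecInterp

/-!
The interpreter of the second machine (a copy of the proof of `interp_spec` in TM/SpecInterp).
-/

namespace Vale.Agent.P338.TM

open Vale.Agent.P338

variable {k : ℕ} [NeZero k]

/-- The conditional execution of one operation. -/
theorem itpD_cond (A : Machine k) (hA : A.Multiplies) (κ2 : ℕ) (op : Op) (hop : OkOp κ2 op)
    (s : St Own (GA A)) (hc : s Own.clk = Z [] [])
    (h1 : s Own.d1 = Z [] (un op.1)) (h2 : s Own.d2 = Z [] (un op.2.1))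
    (h3 : s Own.d3 = Z [] (un op.2.2))
    (D : List Bool) (hD : D.length = 2 ^ κ2) (hX : s Own.X = Z [] (bits D)) :
    (ite (liftL (isSym Own.d2 (bit true)))
        (ite (liftL (isSym Own.d3 (bit true))) (duel A) skip) skip).SRuns
      (Sum.elim s (wiped mkT))
      (cDuel A.worstTime κ2 op + 4)
      (Sum.elim (Function.update s Own.X (Z [] (bits (itpStep op D)))) (wiped mkT)) true := by
  have esame : Function.update s Own.X (Z [] (bits D)) = s := by
    rw [← hX, Function.update_eq_self]
  by_cases hlo : 1 ≤ op.2.1
  · have t2 := liftL_sruns (itp_isSym_true Own.d2 (bit true) s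
      (by rw [h2]; exact (itp_read_un _ _).2 hlo)) (wiped mkT : St ((Fin k ⊕ Own) ⊕ Own) (GA A))
    by_cases hup : 1 ≤ op.2.2
    · have t3 := liftL_sruns (itp_isSym_true Own.d3 (bit true) s
        (by rw [h3]; exact (itp_read_un _ _).2 hup)) (wiped mkT : St ((Fin k ⊕ Own) ⊕ Own) (GA A))
      have ho := duel_spec A hA κ2 op hop hlo hup s hc h1 h2 h3 D hD hX
      have e : itpStep op D = opList op.1 op.2.1 op.2.2 D := by
        unfold itpStep
        rw [if_neg]
        omega
      rw [e]
      exact (ite_sruns_true t2 (ite_sruns_true t3 ho)).mono (by omega)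
    · have t3 := liftL_sruns (itp_isSym_false Own.d3 (bit true) s
        (by rw [h3]; exact fun h => hup ((itp_read_un _ _).1 h)))
        (wiped mkT : St ((Fin k ⊕ Own) ⊕ Own) (GA A))
      have e : itpStep op D = D := by
        unfold itpStep
        rw [if_pos]
        omega
      rw [e, esame]
      exact (ite_sruns_true t2 (ite_sruns_false t3 (skip_sruns _))).mono (by omega)
  · have t2 := liftL_sruns (itp_isSym_false Own.d2 (bit true) s
      (by rw [h2]; exact fun h => hlo ((itp_read_un _ _).1 h)))
      (wiped mkT : St ((Fin k ⊕ Own) ⊕ Own) (GA A))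
    have e : itpStep op D = D := by
      unfold itpStep
      rw [if_pos]
      omega
    rw [e, esame]
    exact (ite_sruns_false t2 (skip_sruns _)).mono (by omega)

theorem interpD_spec (A : Machine k) (hA : A.Multiplies) (κ2 : ℕ) (l : List Op)
    (hl : ∀ op ∈ l, OkOp κ2 op) (sO : St Own (GA A)) (hc : sO Own.clk = Z [] [])
    (h1 : sO Own.d1 = Z [] []) (h2 : sO Own.d2 = Z [] []) (h3 : sO Own.d3 = Z [] [])
    (dd : List (GA A)) (h7 : sO Own.d7 = Z dd (encOps l))
    (D : List Bool) (hD : D.length = 2 ^ κ2) (hX : sO Own.X = Z [] (bits D)) :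
    (interpD A).SRuns (Sum.elim sO (wiped mkT)) (cInterpD A.worstTime κ2 l)
      (Sum.elim (Function.update (Function.update sO
        Own.d7 (Z (dd ++ encOps l) []))
        Own.X (Z [] (bits (runOps l D)))) (wiped mkT)) true := by
  induction l generalizing sO dd D with
  | nil =>
    have t0 := liftL_sruns (notSym_false_fo Own.d7 blank sO (by rw [h7]; rfl))
      (wiped mkT : St ((Fin k ⊕ Own) ⊕ Own) (GA A))
    have h := while_sfalse (R := seqs [liftL (seqs [readField Own.d1, readField Own.d2,
        readField Own.d3]),
      ite (liftL (isSym Own.d2 (bit true)))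
        (ite (liftL (isSym Own.d3 (bit true))) (duel A) skip) skip,
      liftL (seqs [erase Own.d1, erase Own.d2, erase Own.d3])]) t0
    have e : Function.update (Function.update sO Own.d7 (Z (dd ++ encOps []) []))
        Own.X (Z [] (bits (runOps [] D))) = sO := by
      funext x
      cases x <;> simp [encOps, runOps, h7, hX]
    rw [e]
    exact h.mono (by simp [cInterpD])
  | cons op l ih =>
    have hop := hl op (by simp)
    rw [encOps_cons] at h7
    have t0 := liftL_sruns (notSym_true_fo Own.d7 blank sO
      (by rw [h7]; exact itp_encOps_read _ _ _)) (wiped mkT : St ((Fin k ⊕ Own) ⊕ Own) (GA A))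
    have r := liftL_sruns (itp_read3 sO dd (encOps l) op h1 h2 h3 h7)
      (wiped mkT : St ((Fin k ⊕ Own) ⊕ Own) (GA A))
    have c := itpD_cond A hA κ2 op hop (itpRead sO dd (encOps l) op)
      (by simp [itpRead, hc]) (by simp [itpRead]) (by simp [itpRead]) (by simp [itpRead])
      D hD (by simp [itpRead, hX])
    have er := liftL_sruns (itp_erase3
      (Function.update (itpRead sO dd (encOps l) op) Own.X (Z [] (bits (itpStep op D))))
      op.1 op.2.1 op.2.2 (by simp [itpRead]) (by simp [itpRead]) (by simp [itpRead]))
      (wiped mkT : St ((Fin k ⊕ Own) ⊕ Own) (GA A))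
    have e : Function.update (Function.update (Function.update
        (Function.update (itpRead sO dd (encOps l) op) Own.X (Z [] (bits (itpStep op D))))
        Own.d1 (Z [] [])) Own.d2 (Z [] [])) Own.d3 (Z [] [])
        = Function.update (Function.update sO Own.d7 (Z (dd ++ encOp op) (encOps l)))
          Own.X (Z [] (bits (itpStep op D))) := by
      funext x
      cases x <;> simp [itpRead, h1, h2, h3]
    rw [e] at er
    have body := seqs_cons r (seqs_cons c (seqs_cons er (seqs_nil _)))
    have rest := ih (fun o ho => hl o (by simp [ho]))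
      (Function.update (Function.update sO Own.d7 (Z (dd ++ encOp op) (encOps l)))
          Own.X (Z [] (bits (itpStep op D))))
      (by simp [hc]) (by simp [h1]) (by simp [h2]) (by simp [h3])
      (dd ++ encOp op) (by simp) (itpStep op D) (itpStep_length κ2 op hop D hD) (by simp)
    have e2 : Function.update (Function.update
        (Function.update (Function.update sO Own.d7 (Z (dd ++ encOp op) (encOps l)))
          Own.X (Z [] (bits (itpStep op D))))
        Own.d7 (Z (dd ++ encOp op ++ encOps l) []))
        Own.X (Z [] (bits (runOps l (itpStep op D))))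
        = Function.update (Function.update sO Own.d7 (Z (dd ++ encOps (op :: l)) []))
          Own.X (Z [] (bits (runOps (op :: l) D))) := by
      rw [runOps_cons, encOps_cons, List.append_assoc]
      funext x
      cases x <;> simp
    rw [e2] at rest
    have h := while_strue t0 body rest
    refine h.mono ?_
    simp only [cInterpD, List.map_cons, List.sum_cons]
    omega

end Vale.Agent.P338.TM
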