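import Vale.Agent.P338.Duel.Defs3
import Vale.Agent.P338.Duel.FanSpec
import Vale.Agent.P338.TM.SpecPow2
import Vale.Agent.P338.TM.Lift

/-!
Loading the two implementations.  Tools: `fan_spec`, `fanC_spec`, `prim_sruns`, `seqs_cons`,
`seqs_nil`; to bring the final state into the stated form use `funext` and a case distinction on the
tape (`rcases i with x | (j | x) | x`, then `cases x <;> simp [...]`), or the Mathlib rules
`Sum.update_elim_inl`, `Sum.update_elim_inr`.
-/

namespace Vale.Agent.P338.TM

open Vale.Agent.P338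

variable {k : ℕ} [NeZero k]

omit [NeZero k] in
/-- The reset side tapes. -/
theorem wiped_eq {Γ : Type} [TapeAlpha Γ] :
    (wiped mkT : St ((Fin k ⊕ Own) ⊕ Own) Γ)
      = Sum.elim (glue blankA (fun _ => Z [] [])) (fun _ => Z [] []) := by
  funext i
  rcases i with (j | x) | x <;> simp [wiped, mkT, glue, blankA]

theorem ld_blank_notMem_bits {Γ : Type} [TapeAlpha Γ] (D : List Bool) :
    (blank : Γ) ∉ (bits D : List Γ) := by
  intro h
  obtain ⟨b, _, hb⟩ := List.mem_map.1 h
  exact TapeAlpha.bit_ne_blank b hb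

theorem ld_lend_notMem_bits {Γ : Type} [TapeAlpha Γ] (D : List Bool) :
    (lend : Γ) ∉ (bits D : List Γ) := by
  intro h
  obtain ⟨b, _, hb⟩ := List.mem_map.1 h
  exact TapeAlpha.bit_ne_lend b hb

theorem load_spec (A : Machine k) (s : St Own (GA A)) (σ lo up : ℕ) (D : List Bool)
    (hc : s Own.clk = Z [] []) (h1 : s Own.d1 = Z [] (un σ)) (h2 : s Own.d2 = Z [] (un lo))
    (h3 : s Own.d3 = Z [] (un up)) (hX : s Own.X = Z [] (bits D)) :
    (load A).SRuns (Sum.elim s (wiped mkT)) (4 * (D.length + σ + lo + up) + 100)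
      (Sum.elim (Function.update s Own.clk (Z (un (D.length + 1)) []))
        (Sum.elim (glue blankA (sideSt σ lo up D)) (sideSt σ lo up D))) true := by
  have hlenD : (bits D : List (GA A)).length = D.length := by simp [bits]
  have hlenU : ∀ c : ℕ, (un c : List (GA A)).length = c := fun c => by simp [un]
  set s0 : St (T2 k) (GA A) := Sum.elim s (wiped mkT) with hs0
  -- the first mark on the clock
  have r1 := prim_sruns (fun _ : T2 k → GA A => Instr.nil.set (pT Own.clk) (bit true) Move.right) s0
  simp only [Instr.sapp_set, Instr.sapp_nil] at r1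
  have e1 : (s0 (pT Own.clk)).act (bit true) Move.right = Z (un 1) [] := by
    simp only [hs0, Function.update_apply, Sum.inl.injEq, Sum.inr.injEq, reduceCtorEq, if_false, if_true, Sum.elim_inl, Sum.elim_inr]; simp [hc, un]
  rw [e1] at r1
  set s1 := Function.update s0 (pT Own.clk) (Z (un 1) []) with hs1
  have r2 := fanC_spec (pT Own.X) (aT Own.X) (cT Own.X) (pT Own.clk) (by simp) (by simp) (by simp)
    (by simp) (by simp) (by simp) s1 (bits D) 1 (ld_blank_notMem_bits D) (ld_lend_notMem_bits D)
    (by simp only [hs1, hs0, Function.update_apply, Sum.inl.injEq, Sum.inr.injEq, reduceCtorEq, if_false, if_true, Sum.elim_inl, Sum.elim_inr]; simp [hX]) (by simp only [hs1, hs0, Function.update_apply, Sum.inl.injEq, Sum.inr.injEq, reduceCtorEq, if_false, if_true, Sum.elim_inl, Sum.elim_inr]; simp [wiped, mkT]) (by simp only [hs1, hs0, Function.update_apply, Sum.inl.injEq, Sum.inr.injEq, reduceCtorEq, if_false, if_true, Sum.elim_inl, Sum.elim_inr]; simp [wiped, mkT])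
    (by simp only [hs1, Function.update_apply, Sum.inl.injEq, Sum.inr.injEq, reduceCtorEq, if_false, if_true, Sum.elim_inl, Sum.elim_inr])
  rw [hlenD] at r2
  set s2 := Function.update (Function.update (Function.update s1 (aT Own.X) (Z [] (bits D)))
    (cT Own.X) (Z [] (bits D))) (pT Own.clk) (Z (un (1 + D.length)) []) with hs2
  have r3 := fan_spec (pT Own.d1) (aT Own.d1) (cT Own.d1) (by simp) (by simp) (by simp) s2 (un σ)
    (blank_notMem_un_pow2 σ) (lend_notMem_un σ)
    (by simp only [hs2, hs1, hs0, Function.update_apply, Sum.inl.injEq, Sum.inr.injEq, reduceCtorEq, if_false, if_true, Sum.elim_inl, Sum.elim_inr]; simp [h1]) (by simp only [hs2, hs1, hs0, Function.update_apply, Sum.inl.injEq, Sum.inr.injEq, reduceCtorEq, if_false, if_true, Sum.elim_inl, Sum.elim_inr]; simp [wiped, mkT])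
    (by simp only [hs2, hs1, hs0, Function.update_apply, Sum.inl.injEq, Sum.inr.injEq, reduceCtorEq, if_false, if_true, Sum.elim_inl, Sum.elim_inr]; simp [wiped, mkT])
  rw [hlenU] at r3
  set s3 := Function.update (Function.update s2 (aT Own.d1) (Z [] (un σ)))
    (cT Own.d1) (Z [] (un σ)) with hs3
  have r4 := fan_spec (pT Own.d2) (aT Own.d2) (cT Own.d2) (by simp) (by simp) (by simp) s3 (un lo)
    (blank_notMem_un_pow2 lo) (lend_notMem_un lo)
    (by simp only [hs3, hs2, hs1, hs0, Function.update_apply, Sum.inl.injEq, Sum.inr.injEq, reduceCtorEq, if_false, if_true, Sum.elim_inl, Sum.elim_inr]; simp [h2]) (by simp only [hs3, hs2, hs1, hs0, Function.update_apply, Sum.inl.injEq, Sum.inr.injEq, reduceCtorEq, if_false, if_true, Sum.elim_inl, Sum.elim_inr]; simp [wiped, mkT])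
    (by simp only [hs3, hs2, hs1, hs0, Function.update_apply, Sum.inl.injEq, Sum.inr.injEq, reduceCtorEq, if_false, if_true, Sum.elim_inl, Sum.elim_inr]; simp [wiped, mkT])
  rw [hlenU] at r4
  set s4 := Function.update (Function.update s3 (aT Own.d2) (Z [] (un lo)))
    (cT Own.d2) (Z [] (un lo)) with hs4
  have r5 := fan_spec (pT Own.d3) (aT Own.d3) (cT Own.d3) (by simp) (by simp) (by simp) s4 (un up)
    (blank_notMem_un_pow2 up) (lend_notMem_un up)
    (by simp only [hs4, hs3, hs2, hs1, hs0, Function.update_apply, Sum.inl.injEq, Sum.inr.injEq, reduceCtorEq, if_false, if_true, Sum.elim_inl, Sum.elim_inr]; simp [h3]) (by simp only [hs4, hs3, hs2, hs1, hs0, Function.update_apply, Sum.inl.injEq, Sum.inr.injEq, reduceCtorEq, if_false, if_true, Sum.elim_inl, Sum.elim_inr]; simp [wiped, mkT])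
    (by simp only [hs4, hs3, hs2, hs1, hs0, Function.update_apply, Sum.inl.injEq, Sum.inr.injEq, reduceCtorEq, if_false, if_true, Sum.elim_inl, Sum.elim_inr]; simp [wiped, mkT])
  rw [hlenU] at r5
  set s5 := Function.update (Function.update s4 (aT Own.d3) (Z [] (un up)))
    (cT Own.d3) (Z [] (un up)) with hs5
  have hfin : s5 = Sum.elim (Function.update s Own.clk (Z (un (D.length + 1)) []))
        (Sum.elim (glue blankA (sideSt σ lo up D)) (sideSt σ lo up D)) := by
    funext i
    rcases i with x | (j | x) | x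
    · simp only [hs5, hs4, hs3, hs2, hs1, hs0, Function.update_apply, Sum.inl.injEq, Sum.inr.injEq, reduceCtorEq, if_false, if_true, Sum.elim_inl, Sum.elim_inr]
      by_cases hx : x = Own.clk <;> simp [hx, Nat.add_comm]
    · simp only [hs5, hs4, hs3, hs2, hs1, hs0, Function.update_apply, Sum.inl.injEq, Sum.inr.injEq, reduceCtorEq, if_false, if_true, Sum.elim_inl, Sum.elim_inr]; simp [wiped, mkT, blankA]
    · simp only [hs5, hs4, hs3, hs2, hs1, hs0, Function.update_apply, Sum.inl.injEq, Sum.inr.injEq, reduceCtorEq, if_false, if_true, Sum.elim_inl, Sum.elim_inr]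
      simp [wiped, mkT, sideSt, Function.update_apply]
    · simp only [hs5, hs4, hs3, hs2, hs1, hs0, Function.update_apply, Sum.inl.injEq, Sum.inr.injEq, reduceCtorEq, if_false, if_true, Sum.elim_inl, Sum.elim_inr]
      simp [wiped, mkT, sideSt, Function.update_apply]
  rw [← hfin]
  have hall := seqs_cons r1 (seqs_cons r2 (seqs_cons r3 (seqs_cons r4 (seqs_cons r5 (seqs_nil s5)))))
  exact hall.mono (by omega)

end Vale.Agent.P338.TM
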