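import Vale.Agent.P338.Duel.Defs2
import Vale.Agent.P338.TM.ToMachineTr

/-!
From a program on the tapes `T2 k` to a machine of the model.  This is a copy of TM/ToMachine and
TM/ToMachineTr with `T2 k` instead of `Fin k ⊕ Own` and `Sum.inl Own.inp`, `Sum.inl Own.outp`
instead of `Sum.inr Own.inp`, `Sum.inr Own.outp`: copy the proofs (auxiliary statements that do not
mention the machine, e.g. `rowsOf`, `rows_trList`, can be used as they are).
-/

namespace Vale.Agent.P338.TM

open Vale.Agent.P338

variable {k : ℕ}

noncomputable section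

/-- Number of tapes of the second machine. -/
def bigK2 (k : ℕ) : ℕ := Fintype.card (T2 k)

instance (k : ℕ) : NeZero (bigK2 k) := ⟨by
  unfold bigK2
  have : Nonempty (T2 k) := ⟨Sum.inl Own.inp⟩
  exact Fintype.card_ne_zero⟩

/-- Some numbering of the tapes. -/
def tapeEquiv20 (k : ℕ) : T2 k ≃ Fin (bigK2 k) := Fintype.equivFin (T2 k)

/-- A numbering of the tapes in which the input tape `inp` is the first tape. -/
def tapeEquiv2 (k : ℕ) : T2 k ≃ Fin (bigK2 k) :=
  (tapeEquiv20 k).trans (Equiv.swap (tapeEquiv20 k (Sum.inl Own.inp)) (0 : Fin (bigK2 k)))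

theorem tapeEquiv2_inp (k : ℕ) : tapeEquiv2 k (Sum.inl Own.inp) = 0 := by
  simp [tapeEquiv2]

/-- The machine that runs the program `P`; its output tape is `outp`. -/
def toMachine2 (A : Machine k) (P : Prog (T2 k) (GA A)) : Machine (bigK2 k) where
  State := P.Q
  Sym := GA A
  stateFin := P.finQ
  symFin := @instFintypeSum _ _ A.symFin _
  start := P.start
  blank := blank
  bit := bit
  sep := sep
  bit_injective := TapeAlpha.bit_injective
  bit_ne_blank := TapeAlpha.bit_ne_blank
  bit_ne_sep := TapeAlpha.bit_ne_sep
  sep_ne_blank := TapeAlpha.sep_ne_blank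
  out := tapeEquiv2 k (Sum.inl Own.outp)
  trans := fun q a => (P.δ q fun i => a (tapeEquiv2 k i)).map fun r =>
    (r.1, fun j => r.2.1 ((tapeEquiv2 k).symm j), fun j => r.2.2 ((tapeEquiv2 k).symm j))

/-- The start state: the word `w` on `inp` (from the leftmost cell), all other tapes blank, all
heads on the leftmost cell. -/
def startSt2 (A : Machine k) (w : List (GA A)) : St (T2 k) (GA A) :=
  fun i => if i = Sum.inl Own.inp then ⟨[], w⟩ else ⟨[], []⟩

/-- The configuration of the machine that corresponds to a state and tapes of the program. -/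
def toCfg2 (A : Machine k) (P : Prog (T2 k) (GA A)) (x : P.Q × Conf (T2 k) (GA A)) :
    Cfg (toMachine2 A P) where
  state := x.1
  tape := fun j => (x.2 ((tapeEquiv2 k).symm j)).cells
  head := fun j => (x.2 ((tapeEquiv2 k).symm j)).head

theorem toMachine2_step (A : Machine k) (P : Prog (T2 k) (GA A))
    (x : P.Q × Conf (T2 k) (GA A)) :
    (toMachine2 A P).step (toCfg2 A P x) = (P.step x).map (toCfg2 A P) := by
  have hr : (fun i => (fun j => (toCfg2 A P x).tape j ((toCfg2 A P x).head j)) (tapeEquiv2 k i))
      = reads x.2 := by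
    funext i
    simp only [toCfg2, reads, Tp.read, Equiv.symm_apply_apply]
    rfl
  have ht : (toMachine2 A P).trans (toCfg2 A P x).state
      (fun j => (toCfg2 A P x).tape j ((toCfg2 A P x).head j))
      = (P.δ x.1 (reads x.2)).map fun r =>
        (r.1, fun j => r.2.1 ((tapeEquiv2 k).symm j), fun j => r.2.2 ((tapeEquiv2 k).symm j)) := by
    show (P.δ x.1 fun i => (fun j => (toCfg2 A P x).tape j ((toCfg2 A P x).head j))
      (tapeEquiv2 k i)).map _ = _
    rw [hr]
  unfold Machine.step
  rw [ht]
  unfold Prog.step
  cases P.δ x.1 (reads x.2) with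
  | none => rfl
  | some r => rfl

theorem toMachine2_run (A : Machine k) (P : Prog (T2 k) (GA A)) {t : ℕ}
    {x y : P.Q × Conf (T2 k) (GA A)} (h : P.Reach t x y) :
    (toMachine2 A P).run t (toCfg2 A P x) = some (toCfg2 A P y) := by
  induction h with
  | zero x => rfl
  | succ hs _ ih =>
    rw [Machine.run, toMachine2_step, hs]
    exact ih

theorem toMachine2_init (A : Machine k) (P : Prog (T2 k) (GA A)) (w : List (GA A)) :
    (toMachine2 A P).init w = toCfg2 A P (P.start, conc (startSt2 A w)) := by
  have h1 : ((toMachine2 A P).init w).tape = (toCfg2 A P (P.start, conc (startSt2 A w))).tape := by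
    funext j
    by_cases hj : j = 0
    · have e1 : (tapeEquiv2 k).symm j = Sum.inl Own.inp := by
        rw [hj, ← tapeEquiv2_inp k, Equiv.symm_apply_apply]
      funext n
      simp only [Machine.init, hj, if_true, toCfg2, conc]
      rw [← hj, e1]
      simp [startSt2, Zip.toTp, Machine.word]
      rfl
    · have e1 : (tapeEquiv2 k).symm j ≠ Sum.inl Own.inp := by
        intro h
        apply hj
        rw [← tapeEquiv2_inp k, ← h, Equiv.apply_symm_apply]
      funext n
      simp only [Machine.init, hj, if_false, toCfg2, conc]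
      simp [startSt2, e1, Zip.toTp]
      rfl
  have h2 : ((toMachine2 A P).init w).head = (toCfg2 A P (P.start, conc (startSt2 A w))).head := by
    funext j
    simp only [Machine.init, toCfg2, conc, startSt2]
    split_ifs <;> rfl
  have h3 : ((toMachine2 A P).init w).state = (toCfg2 A P (P.start, conc (startSt2 A w))).state := rfl
  cases hc : (toMachine2 A P).init w with
  | mk st tp hd =>
    cases hc' : toCfg2 A P (P.start, conc (startSt2 A w)) with
    | mk st' tp' hd' =>
      rw [hc, hc'] at h1 h2 h3
      simp only at h1 h2 h3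
      rw [h1, h2, h3]

/-- If the program `P`, started on the word `w`, stops within `T` steps in a state whose output
tape holds exactly the word `v`, then so does the machine. -/
theorem toMachine2_spec (A : Machine k) (P : Prog (T2 k) (GA A)) (w v : List (GA A))
    (T : ℕ) (s' : St (T2 k) (GA A)) (b : Bool)
    (h : P.SRuns (startSt2 A w) T s' b)
    (hv : (s' (Sum.inl Own.outp)).l.reverse ++ (s' (Sum.inl Own.outp)).r = v) :
    ∃ (t : ℕ) (c' : Cfg (toMachine2 A P)), t ≤ T ∧
      (toMachine2 A P).HaltsAt ((toMachine2 A P).init w) t c' ∧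
      c'.tape (toMachine2 A P).out = (toMachine2 A P).word v := by
  obtain ⟨t, ht, q, hr, hs, -⟩ := h
  refine ⟨t, toCfg2 A P (q, conc s'), ht, ⟨?_, ?_⟩, ?_⟩
  · rw [toMachine2_init]
    exact toMachine2_run A P hr
  · rw [toMachine2_step, hs]
    rfl
  · show (conc s' ((tapeEquiv2 k).symm (tapeEquiv2 k (Sum.inl Own.outp)))).cells = _
    rw [Equiv.symm_apply_apply]
    funext n
    simp only [conc, Zip.toTp, hv, Machine.word]
    rfl

theorem matWord_eq2 (A : Machine k) (P : Prog (T2 k) (GA A)) {n : ℕ}
    (X : Fin n → Fin n → Bool) :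
    (toMachine2 A P).matWord X = (rowsWord (rowsOf X) : List (GA A)) := by
  unfold Machine.matWord rowsWord rowsOf bits
  rw [List.flatMap_def, List.map_ofFn]
  congr 1
  congr 1
  funext i
  simp only [Function.comp, List.map_ofFn]
  rfl

/-- From the list form of the specification to the matrix form. -/
theorem toMachine2_transposes (A : Machine k) (P : Prog (T2 k) (GA A)) (n T : ℕ)
    (h : ∀ rows : List (List Bool), rows.length = n → (∀ r ∈ rows, r.length = n) →
      ∃ s' : St (T2 k) (GA A),
        P.SRuns (startSt2 A (rowsWord rows)) T s' true ∧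
        (s' (Sum.inl Own.outp)).l.reverse ++ (s' (Sum.inl Own.outp)).r =
          rowsWord ((List.range n).map (slices n (trList n rows.flatten)))) :
    (toMachine2 A P).TransposesAt n ∧ (toMachine2 A P).transTime n ≤ T := by
  have key : ∀ X : Fin n → Fin n → Bool, ∃ (t : ℕ) (c' : Cfg (toMachine2 A P)), t ≤ T ∧
      (toMachine2 A P).HaltsAt ((toMachine2 A P).init ((toMachine2 A P).matWord X)) t c' ∧
      c'.tape (toMachine2 A P).out =
        (toMachine2 A P).word ((toMachine2 A P).matWord fun i j => X j i) := by
    intro X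
    obtain ⟨s', h1, h2⟩ := h (rowsOf X) (rowsOf_length X) (rowsOf_row X)
    rw [rows_trList] at h2
    rw [matWord_eq2, matWord_eq2]
    exact toMachine2_spec A P _ _ T s' true h1 h2
  constructor
  · intro X
    obtain ⟨t, c', -, h1, h2⟩ := key X
    exact ⟨t, c', h1, h2⟩
  · unfold Machine.transTime
    apply Finset.sup_le
    intro X _
    obtain ⟨t, c', ht, h1, -⟩ := key X
    exact (Nat.sInf_le (show t ∈ {t | ∃ c', (toMachine2 A P).HaltsAt _ t c'} from ⟨c', h1⟩)).trans ht

end

end Vale.Agent.P338.TM
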