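import Vale.Agent.P338.Duel.InterpDSpec
import Vale.Agent.P338.Duel.ToMachine2
import Vale.Agent.P338.TM.SpecMainQ

/-!
The second transposition program (a copy of the proof of `mainQ_spec` in TM/SpecMainQ).
-/

namespace Vale.Agent.P338.TM

open Vale.Agent.P338

variable {k : ℕ} [NeZero k]

omit [NeZero k] in
theorem startSt2_eq (A : Machine k) (w : List (GA A)) :
    startSt2 A w = Sum.elim (fun x => if x = Own.inp then ⟨[], w⟩ else ⟨[], []⟩)
      (fun _ => ⟨[], []⟩) := by
  funext i
  rcases i with x | j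
  · simp [startSt2]
  · simp [startSt2]

theorem initSides_spec (A : Machine k) (s : St Own (GA A)) :
    (initSides A).SRuns (Sum.elim s (fun _ => ⟨[], []⟩)) 1 (Sum.elim s (wiped mkT)) true := by
  have h : (initSides A).SRuns (Sum.elim s (fun _ => ⟨[], []⟩)) 1 _ true := prim_sruns _ _
  convert h using 1
  funext i
  rcases i with x | j
  · rfl
  · simp only [Sum.elim_inr, wiped, Instr.sapp]
    by_cases hj : mkT j = true
    · simp [hj, Z, Zip.act]
    · simp [hj]

/-- The whole program, all sizes. -/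
theorem mainD_spec (A : Machine k) (hA : A.Multiplies) (n : ℕ) (hn : 1 ≤ n)
    (rows : List (List Bool)) (hr : rows.length = n) (hrow : ∀ r ∈ rows, r.length = n) :
    ∃ s' : St (T2 k) (GA A),
      (mainD A).SRuns (startSt2 A (rowsWord rows)) (cMainD A.worstTime n) s' true ∧
      (s' (Sum.inl Own.outp)).l.reverse ++ (s' (Sum.inl Own.outp)).r =
        rowsWord ((List.range n).map (slices n (trList n rows.flatten))) := by
  have hnN : n ≤ 2 ^ clog n := Nat.le_pow_clog (by norm_num) n
  have hDl := flatten_length_sq n rows hr hrow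
  have hpl := padList_length n (2 ^ clog n) hnN rows.flatten
  obtain ⟨s6, hs6, r6⟩ := (phase1_spec (Γ := GA A) n hn rows hr hrow).exists_eq
  have q1 := liftL_sruns r6 (fun _ => ⟨[], []⟩ : St ((Fin k ⊕ Own) ⊕ Own) (GA A))
  rw [← startSt2_eq] at q1
  have q1' := initSides_spec A s6
  have q2 := (interpD_spec A hA (2 * clog n) (sched (clog n)) (sched_ok (clog n)) s6
    (by simp [hs6])
    (by simp [hs6]) (by simp [hs6]) (by simp [hs6]) [] (by simp [hs6])
    (padList n (2 ^ clog n) rows.flatten) (by rw [hpl, two_mul, pow_add])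
    (by simp [hs6]))
  rw [sched_correct (clog n) _ hpl] at q2
  obtain ⟨s7, hs7⟩ : ∃ s7, s7 = Function.update (Function.update s6
      Own.d7 (Z ([] ++ encOps (sched (clog n))) []))
      Own.X (Z [] (bits (trList (2 ^ clog n) (padList n (2 ^ clog n) rows.flatten)))) := ⟨_, rfl⟩
  rw [← hs7] at q2
  obtain ⟨s8, hs8, r8⟩ := (ceilLog_spec s7 n hn (by simp [hs7, hs6])
    (by
      intro x hx
      simp only [List.mem_cons, List.not_mem_nil, or_false] at hx
      rcases hx with rfl | rfl | rfl | rfl | rfl <;> simp [hs7, hs6])).exists_eq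
  obtain ⟨s9, r9, ho⟩ := outputCrop_spec s8 n (2 ^ clog n) hnN
    (trList (2 ^ clog n) (padList n (2 ^ clog n) rows.flatten)) (trList_length _ _)
    (by simp [hs8, hs7]) (by simp [hs8, hs7, hs6]) (by simp [hs8]) (by simp [hs8])
    (by simp [hs8, hs7, hs6])
  have q3 := liftL_sruns (seqs_cons r8 (seqs_cons r9 (seqs_nil _)))
    (wiped mkT : St ((Fin k ⊕ Own) ⊕ Own) (GA A))
  have hN1 : 1 ≤ 2 ^ clog n := Nat.one_le_two_pow
  have hNN : 2 ^ clog n ≤ 2 ^ clog n * 2 ^ clog n := Nat.le_mul_of_pos_left _ hN1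
  refine ⟨Sum.elim s9 (wiped mkT),
    (seqs_cons q1 (seqs_cons q1' (seqs_cons q2 (seqs_cons q3 (seqs_nil _))))).mono ?_, ?_⟩
  · unfold cMainD
    omega
  · rw [Sum.elim_inl, ho, crop_tr_pad n (2 ^ clog n) hnN _ hDl]
    simp

/-- The second machine. -/
noncomputable def machD (A : Machine k) : Machine (bigK2 k) := toMachine2 A (mainD A)

theorem machD_transposes (A : Machine k) (hA : A.Multiplies) (n : ℕ) (hn : 1 ≤ n) :
    (machD A).TransposesAt n :=
  (toMachine2_transposes A (mainD A) n _
    (fun rows hr hrow => mainD_spec A hA n hn rows hr hrow)).1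

theorem machD_time (A : Machine k) (hA : A.Multiplies) (n : ℕ) (hn : 1 ≤ n) :
    (machD A).transTime n ≤ cMainD A.worstTime n :=
  (toMachine2_transposes A (mainD A) n _
    (fun rows hr hrow => mainD_spec A hA n hn rows hr hrow)).2

end Vale.Agent.P338.TM
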