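import Vale.Agent.P338.Duel.Defs3
import Vale.Agent.P338.TM.SpecPow2
import Vale.Agent.P338.TM.SpecUnary
import Vale.Agent.P338.TM.SpecAddReg
import Vale.Agent.P338.TM.SpecPadCrop

/-!
The perfect shuffle of one group.  Tools: `forU_fun` (TM/SpecSweep), `cpU_spec` (TM/SpecUnary),
`rewind_spec`, `erase_spec` (TM/SpecRewind), `seqs_cons`, `seqs_nil` (TM/SpecPow2), `seq_sruns`.
With `G` of length `2 * h * e`: the first loop copies `G.take (h * e)` to `W`
(after `c` rounds: `cat (slices e G) 0 c`); round `c` of the second loop appends
`slices e G c` (from `W`) and `slices e G (h + c)` (from `X`) to `Y`.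
-/

namespace Vale.Agent.P338.TM

open Vale.Agent.P338

variable {Γ : Type} [TapeAlpha Γ]

theorem passGroup_spec (s : St Own Γ) (e h : ℕ) (dX G rest dY : List Bool)
    (hG : G.length = 2 * h * e)
    (hta : s Own.ta = Z [] (un h)) (hte : s Own.te = Z [] (un e))
    (hX : s Own.X = Z (bits dX) (bits (G ++ rest))) (hY : s Own.Y = Z (bits dY) [])
    (hW : s Own.W = Z [] []) :
    (passGroup : Prog Own Γ).SRuns s (h * (23 * e + 31) + 40)
      (Function.update (Function.update s Own.X (Z (bits (dX ++ G)) (bits rest)))
        Own.Y (Z (bits (dY ++ shuf e h G)) [])) true := by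
  set f := slices e G with hf
  set g : ℕ → List Bool := fun c => f c ++ f (h + c) with hg
  have hcat : cat f 0 (2 * h) = G := cat_slices_pc e (2 * h) G hG
  have hfl : ∀ j, (f j).length = e := fun j => slices_length e G j
  -- first loop
  set F1 : ℕ → St Own Γ := fun k => Function.update (Function.update s Own.X
    (Z (bits (dX ++ cat f 0 k)) (bits (cat f k (2 * h - k) ++ rest)))) Own.W
    (Z (bits (cat f 0 k)) []) with hF1
  have h1 := forU_fun Own.ta (cpU Own.te Own.X Own.W : Prog Own Γ) h (7 * e + 6) F1 (by
    intro k hk
    refine ⟨true, ?_⟩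
    set S := Function.update (F1 k) Own.ta (Z (un k) (un (h - k))) with hS
    obtain ⟨m, hm⟩ : ∃ m, 2 * h - k = m + 1 := ⟨2 * h - k - 1, by omega⟩
    have hm' : 2 * h - (k + 1) = m := by omega
    have a1 := cpU_spec Own.te Own.X Own.W (by decide) (by decide) (by decide) S e
      (bits (dX ++ cat f 0 k)) (bits (f k)) (bits (cat f (k + 1) m ++ rest)) (bits (cat f 0 k)) []
      (by rw [bits_length_pc, hfl])
      (by simp [hS, hF1, hte])
      (by simp [hS, hF1, hm, cat_succ_left_pc, bits_append_pc])
      (by simp [hS, hF1])
    have e1 : Function.update (Function.update S Own.X (Z (bits (dX ++ cat f 0 k) ++ bits (f k))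
        (bits (cat f (k + 1) m ++ rest)))) Own.W (Z (bits (cat f 0 k) ++ bits (f k))
        (([] : List Γ).drop e)) = Function.update (F1 (k + 1)) Own.ta (Z (un k) (un (h - k))) := by
      funext i
      simp only [hS, hF1, Function.update_apply, hm']
      by_cases h1 : i = Own.ta
      · subst h1; simp
      · by_cases h2 : i = Own.W
        · subst h2
          simp [cat_succ_pc, bits_append_pc]
        · by_cases h3 : i = Own.X
          · subst h3
            simp [cat_succ_pc, bits_append_pc]
          · simp [h1, h2, h3]
    rw [e1] at a1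
    exact a1)
  have e10 : Function.update (F1 0) Own.ta (Z [] (un h)) = s := by
    funext i
    simp only [hF1, Function.update_apply]
    by_cases h1 : i = Own.ta
    · subst h1; simp [hta]
    · by_cases h2 : i = Own.W
      · subst h2; simp [cat_zero_pc, bits, hW]
      · by_cases h3 : i = Own.X
        · subst h3; simp [cat_zero_pc, hX, hcat]
        · simp [h1, h2, h3]
  rw [e10] at h1
  set S1 := Function.update (F1 h) Own.ta (Z [] (un h)) with hS1
  -- rewind
  have h2 := rewind_spec Own.W S1 (bits (cat f 0 h)) [] (by simp [hS1, hF1])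
    (lend_notMem_bits_pc _) (by simp)
  -- second loop
  set F2 : ℕ → St Own Γ := fun k => Function.update (Function.update (Function.update s Own.X
    (Z (bits (dX ++ cat f 0 (h + k))) (bits (cat f (h + k) (h - k) ++ rest)))) Own.W
    (Z (bits (cat f 0 k)) (bits (cat f k (h - k))))) Own.Y (Z (bits (dY ++ cat g 0 k)) []) with hF2
  have h3 := forU_fun Own.ta (seq (cpU Own.te Own.W Own.Y) (cpU Own.te Own.X Own.Y) : Prog Own Γ) h
    (14 * e + 13) F2 (by
    intro k hk
    refine ⟨true, ?_⟩
    set S := Function.update (F2 k) Own.ta (Z (un k) (un (h - k))) with hS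
    obtain ⟨m, hm⟩ : ∃ m, h - k = m + 1 := ⟨h - k - 1, by omega⟩
    have hm' : h - (k + 1) = m := by omega
    have a1 := cpU_spec Own.te Own.W Own.Y (by decide) (by decide) (by decide) S e
      (bits (cat f 0 k)) (bits (f k)) (bits (cat f (k + 1) m)) (bits (dY ++ cat g 0 k)) []
      (by rw [bits_length_pc, hfl])
      (by simp [hS, hF2, hte])
      (by simp [hS, hF2, hm, cat_succ_left_pc, bits_append_pc])
      (by simp [hS, hF2])
    set S' := Function.update (Function.update S Own.W (Z (bits (cat f 0 k) ++ bits (f k))
        (bits (cat f (k + 1) m)))) Own.Y (Z (bits (dY ++ cat g 0 k) ++ bits (f k))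
        (([] : List Γ).drop e)) with hS'
    have a2 := cpU_spec Own.te Own.X Own.Y (by decide) (by decide) (by decide) S' e
      (bits (dX ++ cat f 0 (h + k))) (bits (f (h + k))) (bits (cat f (h + k + 1) m ++ rest))
      (bits (dY ++ cat g 0 k) ++ bits (f k)) []
      (by rw [bits_length_pc, hfl])
      (by simp [hS', hS, hF2, hte])
      (by simp [hS', hS, hF2, hm, cat_succ_left_pc, bits_append_pc])
      (by simp [hS'])
    have e1 : Function.update (Function.update S' Own.X
        (Z (bits (dX ++ cat f 0 (h + k)) ++ bits (f (h + k)))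
        (bits (cat f (h + k + 1) m ++ rest)))) Own.Y
        (Z (bits (dY ++ cat g 0 k) ++ bits (f k) ++ bits (f (h + k)))
        (([] : List Γ).drop e)) = Function.update (F2 (k + 1)) Own.ta (Z (un k) (un (h - k))) := by
      funext i
      simp only [hS', hS, hF2, Function.update_apply, hm']
      by_cases h1 : i = Own.ta
      · subst h1; simp
      · by_cases h2 : i = Own.Y
        · subst h2
          simp [cat_succ_pc, bits_append_pc, hg]
        · by_cases h3 : i = Own.X
          · subst h3
            simp [← Nat.add_assoc, cat_succ_pc, bits_append_pc]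
          · by_cases h4 : i = Own.W
            · subst h4
              simp [cat_succ_pc, bits_append_pc]
            · simp [h1, h2, h3, h4]
    rw [e1] at a2
    exact (seq_sruns a1 a2).mono (by omega))
  have e20 : Function.update (F2 0) Own.ta (Z [] (un h))
      = Function.update S1 Own.W (Z [] (bits (cat f 0 h) ++ [])) := by
    funext i
    simp only [hF2, hS1, hF1, Function.update_apply]
    by_cases h1 : i = Own.ta
    · subst h1; simp
    · by_cases h2 : i = Own.Y
      · subst h2; simp [cat_zero_pc, hY]
      · by_cases h3 : i = Own.X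
        · subst h3
          have : 2 * h - h = h := by omega
          simp [this]
        · by_cases h4 : i = Own.W
          · subst h4; simp [cat_zero_pc, bits]
          · simp [h1, h2, h3, h4]
  rw [e20] at h3
  set S3 := Function.update (F2 h) Own.ta (Z [] (un h)) with hS3
  have h4 := erase_spec Own.W S3 (bits (cat f 0 h)) [] (by simp [hS3, hF2, cat_zero_pc, bits])
    (lend_notMem_bits_pc _) (by simp) (by simp)
  have efin : Function.update S3 Own.W (Z [] [])
      = Function.update (Function.update s Own.X (Z (bits (dX ++ G)) (bits rest)))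
        Own.Y (Z (bits (dY ++ shuf e h G)) []) := by
    funext i
    simp only [hS3, hF2, Function.update_apply]
    by_cases h1 : i = Own.ta
    · subst h1; simp [hta]
    · by_cases h2 : i = Own.Y
      · subst h2; simp [shuf, hg, hf]
      · by_cases h3 : i = Own.X
        · subst h3
          have : h + h = 2 * h := by omega
          simp [this, hcat, cat_zero_pc]
        · by_cases h4 : i = Own.W
          · subst h4; simp [hW]
          · simp [h1, h2, h3, h4]
  rw [efin] at h4
  have hall := seqs_cons h1 (seqs_cons h2 (seqs_cons h3 (seqs_cons h4 (seqs_nil _))))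
  refine Prog.SRuns.mono hall ?_
  have hl : (bits (cat f 0 h) : List Γ).length = h * e := by
    rw [bits_length_pc, cat_length_pc f 0 h e hfl]
  rw [hl]
  simp only [List.length_nil]
  ring_nf
  omega

end Vale.Agent.P338.TM
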