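import Vale.Agent.P338.Duel.Defs3
import Vale.Agent.P338.TM.SchedMath
import Vale.Agent.P338.TM.MathBits

/-!
Perfect shuffles, on lists.  Tools: `opList_eq_gather`, `gather_gather`, `gather_congr`
(TM/Sched2), `testBit_swF`, `swF_lt` (TM/Sched1), `Nat.eq_of_testBit_eq`, `swP` (TM/Sched0).
-/

namespace Vale.Agent.P338.TM

open Vale.Agent.P338

theorem sm_slices_slices (e k : ℕ) (D : List Bool) (g c : ℕ) (hc : c < k) :
    slices e (slices (k * e) D g) c = slices e D (g * k + c) := by
  unfold slices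
  apply List.map_congr_left
  intro i hi
  have hi' : i < e := List.mem_range.1 hi
  have h1 : c * e + i < k * e := by
    calc c * e + i < c * e + e := by omega
      _ = (c + 1) * e := by ring
      _ ≤ k * e := Nat.mul_le_mul_right _ hc
  rw [List.getD_eq_getElem _ _ (by simpa using h1)]
  simp only [List.getElem_map, List.getElem_range]
  congr 1
  ring

theorem sm_cat_two (f : ℕ → List Bool) : cat f 0 2 = f 0 ++ f 1 := by
  simp [cat, List.range_succ]

/-- The operation `(σ, l, 1)` is the perfect shuffle of every group.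
(`trIdx (2^l) 2 j = (j % 2) * 2^l + j / 2`; compare entry by entry, e.g. with `List.ext_getElem`
or by writing both sides as `(List.range (2^T)).map ..`, see `cat_map_range` in TM/Sched2.) -/
theorem opList_eq_shuf (σ l T : ℕ) (h : σ + l + 1 ≤ T) (D : List Bool) (hD : D.length = 2 ^ T) :
    opList σ l 1 D
      = cat (fun g => shuf (2 ^ σ) (2 ^ l) (slices (2 * 2 ^ l * 2 ^ σ) D g)) 0
          (2 ^ (T - σ - l - 1)) := by
  have e1 : D.length / 2 ^ σ = 2 ^ (T - σ - l - 1) * (2 ^ l * 2) := by
    rw [hD, Nat.pow_div (by omega) (by norm_num), ← pow_succ, ← pow_add]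
    congr 1
    omega
  have hpos : 0 < 2 ^ l * 2 := by positivity
  unfold opList
  rw [e1, ← mb_cat_cat]
  apply mb_cat_congr
  intro g _
  simp only [Nat.zero_add, pow_one]
  unfold shuf
  rw [← mb_cat_cat]
  apply mb_cat_congr
  intro c hc
  simp only [Nat.zero_add]
  rw [sm_cat_two]
  have hc1 : c * 2 + 0 < 2 ^ l * 2 := by omega
  have hc2 : c * 2 + 1 < 2 ^ l * 2 := by omega
  have d1 : (g * (2 ^ l * 2) + (c * 2 + 0)) / (2 ^ l * 2) = g := by
    rw [Nat.mul_comm g, Nat.mul_add_div hpos, Nat.div_eq_of_lt hc1, Nat.add_zero]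
  have d2 : (g * (2 ^ l * 2) + (c * 2 + 0)) % (2 ^ l * 2) = c * 2 + 0 := by
    rw [Nat.mul_comm g, Nat.mul_add_mod, Nat.mod_eq_of_lt hc1]
  have d3 : (g * (2 ^ l * 2) + (c * 2 + 1)) / (2 ^ l * 2) = g := by
    rw [Nat.mul_comm g, Nat.mul_add_div hpos, Nat.div_eq_of_lt hc2, Nat.add_zero]
  have d4 : (g * (2 ^ l * 2) + (c * 2 + 1)) % (2 ^ l * 2) = c * 2 + 1 := by
    rw [Nat.mul_comm g, Nat.mul_add_mod, Nat.mod_eq_of_lt hc2]
  have t1 : trIdx (2 ^ l) 2 (c * 2 + 0) = c := by
    unfold trIdx
    have a1 : (c * 2 + 0) % 2 = 0 := by omega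
    have a2 : (c * 2 + 0) / 2 = c := by omega
    rw [a1, a2]
    simp
  have t2 : trIdx (2 ^ l) 2 (c * 2 + 1) = 2 ^ l + c := by
    unfold trIdx
    have a1 : (c * 2 + 1) % 2 = 1 := by omega
    have a2 : (c * 2 + 1) / 2 = c := by omega
    rw [a1, a2]
    simp
  rw [d1, d2, d3, d4, t1, t2]
  have e2 : 2 * 2 ^ l * 2 ^ σ = (2 ^ l * 2) * 2 ^ σ := by ring
  rw [e2, sm_slices_slices _ _ _ _ _ (by omega), sm_slices_slices _ _ _ _ _ (by omega)]

/-- On the positions of the address bits: `j` rotations by one place. -/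
theorem swP_rot (σ n j i : ℕ) (hj : j ≤ n) (hn : 1 ≤ n) :
    (fun i => swP σ (n - 1) 1 i)^[j] i = swP σ (n - j) j i := by
  induction j with
  | zero =>
    simp only [Function.iterate_zero, id_eq]
    unfold swP
    split_ifs <;> omega
  | succ j ih =>
    rw [Function.iterate_succ_apply', ih (by omega)]
    unfold swP
    split_ifs <;> omega

theorem sm_testBit_iter (σ l j t i : ℕ) :
    ((fun t => swF σ l 1 t)^[j] t).testBit i = t.testBit ((fun i => swP σ l 1 i)^[j] i) := by
  induction j generalizing i with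
  | zero => rfl
  | succ j ih =>
    rw [Function.iterate_succ_apply', Function.iterate_succ_apply, testBit_swF, ih]

theorem sm_iter_lt (σ l T j t : ℕ) (h : σ + l + 1 ≤ T) (ht : t < 2 ^ T) :
    (fun t => swF σ l 1 t)^[j] t < 2 ^ T := by
  induction j with
  | zero => exact ht
  | succ j ih =>
    rw [Function.iterate_succ_apply']
    exact swF_lt _ _ _ T _ h ih

theorem sm_opList_iter_gather (σ l T j : ℕ) (h : σ + l + 1 ≤ T) (D : List Bool)
    (hD : D.length = 2 ^ T) :
    (fun D => opList σ l 1 D)^[j] D = gather (2 ^ T) ((fun t => swF σ l 1 t)^[j]) D := by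
  induction j with
  | zero =>
    have := gather_id D
    rw [hD] at this
    exact this.symm
  | succ j ih =>
    rw [Function.iterate_succ_apply', ih]
    show opList σ l 1 (gather (2 ^ T) ((fun t => swF σ l 1 t)^[j]) D) = _
    rw [opList_eq_gather σ l 1 T (by omega) _ (gather_length _ _ _),
      gather_gather _ _ _ _ (fun t ht => swF_lt _ _ _ T _ h ht)]
    apply gather_congr
    intro t _
    rw [Function.iterate_succ_apply]

/-- `up` perfect shuffles are the operation `(σ, lo, up)`. -/
theorem opList_iter (σ lo up T : ℕ) (hlo : 1 ≤ lo) (hT : σ + lo + up ≤ T) (D : List Bool)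
    (hD : D.length = 2 ^ T) :
    (fun D => opList σ (lo + up - 1) 1 D)^[up] D = opList σ lo up D := by
  rw [sm_opList_iter_gather σ (lo + up - 1) T up (by omega) D hD,
    opList_eq_gather σ lo up T (by omega) D hD]
  apply gather_congr
  intro t _
  apply Nat.eq_of_testBit_eq
  intro i
  rw [sm_testBit_iter, testBit_swF, swP_rot σ (lo + up) up i (by omega) (by omega)]
  have : lo + up - up = lo := by omega
  rw [this]

theorem opList_length' (σ lo up T : ℕ) (hT : σ ≤ T) (D : List Bool) (hD : D.length = 2 ^ T) :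
    (opList σ lo up D).length = 2 ^ T := by
  rw [opList_eq_gather σ lo up T hT D hD, gather_length]

end Vale.Agent.P338.TM
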