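import Vale.Agent.P338.Duel.PassGroupSpec
import Vale.Agent.P338.Duel.ShufMath

/-!
One perfect shuffle of all groups.  With `w = 2 * 2^l * 2^σ` and `q = 2^(T-σ-l-1)` groups
(`q * w = 2^T`): before round `g` of the loop `X = Z (bits (cat (slices w D) 0 g))
(bits (cat (slices w D) g (q - g)))` and `Y = Z (bits (cat (fun g => shuf .. (slices w D g)) 0 g)) []`
(induction on the number of remaining groups with `while_strue`, `while_sfalse`;
`cat_slices` in TM/MathMain: `cat (slices w D) 0 q = D`).  Then `opList_eq_shuf`, `rewind_spec`,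
`copyOver_spec`, `erase_spec`.  Time of a round: `2^l * (23 * 2^σ + 31) + 40 + 3 ≤ 60 * w`.
-/

namespace Vale.Agent.P338.TM

open Vale.Agent.P338

variable {Γ : Type} [TapeAlpha Γ]

theorem lend_notMem_bits_ps (w : List Bool) : (lend : Γ) ∉ (bits w : List Γ) := by
  intro h
  obtain ⟨b, _, hb⟩ := List.mem_map.1 h
  exact TapeAlpha.bit_ne_lend b hb

theorem blank_notMem_bits_ps (w : List Bool) : (blank : Γ) ∉ (bits w : List Γ) := by
  intro h
  obtain ⟨b, _, hb⟩ := List.mem_map.1 h
  exact TapeAlpha.bit_ne_blank b hb

theorem bits_length_ps (w : List Bool) : (bits w : List Γ).length = w.length := by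
  simp [bits]

theorem test_label_ps (s : St Own Γ) (b : Bool)
    (p : (Own → Γ) → Bool) (hp : p (sreads s) = b) : (test p).SRuns s 1 s b := by
  rw [← hp]
  exact test_sruns p s

theorem notSym_true_ps (x : Own) (w : Γ) (s : St Own Γ)
    (h : (s x).read ≠ w) : (notSym x w).SRuns s 1 s true := by
  apply test_label_ps
  by_contra hc
  rw [Bool.not_eq_true, decide_eq_false_iff_not] at hc
  exact hc h

theorem notSym_false_ps (x : Own) (w : Γ) (s : St Own Γ)
    (h : (s x).read = w) : (notSym x w).SRuns s 1 s false := by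
  apply test_label_ps
  rw [decide_eq_false_iff_not]
  exact not_not.mpr h

theorem cat_succ_left_ps (f : ℕ → List Bool) (k : ℕ) :
    cat f 0 (k + 1) = f 0 ++ cat (fun j => f (j + 1)) 0 k := by
  simp only [cat, List.range_succ_eq_map, List.flatMap_cons, List.flatMap_map, Nat.zero_add]

theorem slices_zero_ps (w : ℕ) (G rest : List Bool) (hG : G.length = w) :
    slices w (G ++ rest) 0 = G := by
  apply List.ext_getElem
  · simp [slices, hG]
  · intro i h1 h2
    simp only [slices, List.getElem_map, List.getElem_range, Nat.zero_mul, Nat.zero_add]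
    rw [List.getD_eq_getElem _ _ (by simp; omega), List.getElem_append_left h2]

theorem slices_succ_ps (w : ℕ) (G rest : List Bool) (hG : G.length = w) (g : ℕ) :
    slices w (G ++ rest) (g + 1) = slices w rest g := by
  simp only [slices]
  apply List.map_congr_left
  intro i _
  have e : (g + 1) * w + i = G.length + (g * w + i) := by rw [hG]; ring
  rw [e]
  simp [List.getD_eq_getElem?_getD, List.getElem?_append_right]

/-- the loop over the groups -/
theorem pass_loop_ps (e h w : ℕ) (hw : w = 2 * h * e) (hw0 : 0 < w) (r : ℕ) :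
    ∀ (s : St Own Γ) (dX rest dY : List Bool), rest.length = r * w →
      s Own.ta = Z [] (un h) → s Own.te = Z [] (un e) →
      s Own.X = Z (bits dX) (bits rest) → s Own.Y = Z (bits dY) [] → s Own.W = Z [] [] →
      (while_ (notSym Own.X blank) passGroup : Prog Own Γ).SRuns s
        (r * (h * (23 * e + 31) + 40 + 3) + 2)
        (Function.update (Function.update s Own.X (Z (bits (dX ++ rest)) []))
          Own.Y (Z (bits (dY ++ cat (fun g => shuf e h (slices w rest g)) 0 r)) [])) true := by
  induction r with
  | zero =>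
    intro s dX rest dY hlen hta hte hX hY hW
    have hrest : rest = [] := List.length_eq_zero_iff.1 (by simpa using hlen)
    subst hrest
    have h1 := notSym_false_ps Own.X blank s (by rw [hX]; rfl)
    have h2 := while_sfalse (R := (passGroup : Prog Own Γ)) h1
    have e1 : Function.update (Function.update s Own.X (Z (bits (dX ++ [])) []))
        Own.Y (Z (bits (dY ++ cat (fun g => shuf e h (slices w [] g)) 0 0)) []) = s := by
      have c0 : cat (fun g => shuf e h (slices w [] g)) 0 0 = [] := by simp [cat]
      rw [c0, List.append_nil, List.append_nil]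
      have hX' : s Own.X = Z (bits dX) [] := by rw [hX]; rfl
      rw [← hX', Function.update_eq_self, ← hY, Function.update_eq_self]
    rw [e1]
    exact h2.mono (by omega)
  | succ r ih =>
    intro s dX rest dY hlen hta hte hX hY hW
    obtain ⟨G, rest', hsplit, hG, hrest'⟩ : ∃ G rest' : List Bool, rest = G ++ rest' ∧
        G.length = w ∧ rest'.length = r * w := by
      refine ⟨rest.take w, rest.drop w, (List.take_append_drop w rest).symm, ?_, ?_⟩
      · rw [List.length_take, hlen]
        have : w ≤ (r + 1) * w := by nlinarith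
        omega
      · rw [List.length_drop, hlen]
        have : (r + 1) * w = r * w + w := by ring
        omega
    subst hsplit
    have hne : (s Own.X).read ≠ blank := by
      rw [hX]
      cases G with
      | nil => simp at hG; omega
      | cons b G' =>
        simp only [List.cons_append, bits, List.map_cons, Z_read_cons]
        exact TapeAlpha.bit_ne_blank b
    have h1 := notSym_true_ps Own.X blank s hne
    have h2 := passGroup_spec s e h dX G rest' dY (by rw [hG, hw]) hta hte hX hY hW
    set s2 := Function.update (Function.update s Own.X (Z (bits (dX ++ G)) (bits rest')))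
        Own.Y (Z (bits (dY ++ shuf e h G)) []) with hs2
    have h3 := ih s2 (dX ++ G) rest' (dY ++ shuf e h G) hrest'
      (by simp [hs2, hta]) (by simp [hs2, hte]) (by simp [hs2]) (by simp [hs2])
      (by simp [hs2, hW])
    have h4 := while_strue h1 h2 h3
    have e1 : Function.update (Function.update s2 Own.X (Z (bits (dX ++ G ++ rest')) []))
        Own.Y (Z (bits (dY ++ shuf e h G ++ cat (fun g => shuf e h (slices w rest' g)) 0 r)) [])
        = Function.update (Function.update s Own.X (Z (bits (dX ++ (G ++ rest'))) []))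
          Own.Y (Z (bits (dY ++ cat (fun g => shuf e h (slices w (G ++ rest') g)) 0 (r + 1))) [])
        := by
      rw [cat_succ_left_ps, slices_zero_ps w G rest' hG]
      simp only [slices_succ_ps w G rest' hG]
      rw [List.append_assoc, List.append_assoc]
      funext i
      by_cases hiY : i = Own.Y
      · subst hiY; simp
      · by_cases hiX : i = Own.X
        · subst hiX; simp
        · simp [hs2, Function.update_of_ne hiY, Function.update_of_ne hiX]
    rw [e1] at h4
    refine h4.mono ?_
    have : (r + 1) * (h * (23 * e + 31) + 40 + 3)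
        = r * (h * (23 * e + 31) + 40 + 3) + (h * (23 * e + 31) + 40 + 3) := by ring
    omega

theorem pass_spec (s : St Own Γ) (σ l T : ℕ) (h : σ + l + 1 ≤ T) (D : List Bool)
    (hD : D.length = 2 ^ T)
    (hta : s Own.ta = Z [] (un (2 ^ l))) (hte : s Own.te = Z [] (un (2 ^ σ)))
    (hX : s Own.X = Z [] (bits D)) (hY : s Own.Y = Z [] []) (hW : s Own.W = Z [] []) :
    (pass : Prog Own Γ).SRuns s (cPass T)
      (Function.update s Own.X (Z [] (bits (opList σ l 1 D)))) true := by
  obtain ⟨w, hw⟩ : ∃ w, w = 2 * 2 ^ l * 2 ^ σ := ⟨_, rfl⟩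
  obtain ⟨q, hq⟩ : ∃ q, q = 2 ^ (T - σ - l - 1) := ⟨_, rfl⟩
  have hl0 : 0 < 2 ^ l := by positivity
  have hσ0 : 0 < 2 ^ σ := by positivity
  have hw0 : 0 < w := by rw [hw]; positivity
  have hqw : q * w = 2 ^ T := by
    have e1 : T = (T - σ - l - 1) + (1 + l + σ) := by omega
    rw [hq, hw]
    conv_rhs => rw [e1]
    rw [pow_add, pow_add, pow_add]
    ring
  obtain ⟨D', hD'⟩ : ∃ D', D' = opList σ l 1 D := ⟨_, rfl⟩
  have hD'len : D'.length = 2 ^ T := by
    rw [hD']; exact opList_length' σ l 1 T (by omega) D hD
  have hcat : cat (fun g => shuf (2 ^ σ) (2 ^ l) (slices w D g)) 0 q = D' := by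
    rw [hD', opList_eq_shuf σ l T h D hD, hw, hq]
  have h1 := pass_loop_ps (Γ := Γ) (2 ^ σ) (2 ^ l) w hw hw0 q s [] D [] (by rw [hD, hqw]) hta hte
    (by rw [hX]; rfl) (by rw [hY]; rfl) hW
  rw [hcat] at h1
  simp only [List.nil_append] at h1
  set s1 := Function.update (Function.update s Own.X (Z (bits D) []))
        Own.Y (Z (bits D') []) with hs1
  have h2 := rewind_spec Own.X s1 (bits D) [] (by simp [hs1]) (lend_notMem_bits_ps D) (by simp)
  rw [List.append_nil, bits_length_ps, hD] at h2
  set s2 := Function.update s1 Own.X (Z [] (bits D)) with hs2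
  have h3 := rewind_spec Own.Y s2 (bits D') [] (by simp [hs2, hs1]) (lend_notMem_bits_ps D')
    (by simp)
  rw [List.append_nil, bits_length_ps, hD'len] at h3
  set s3 := Function.update s2 Own.Y (Z [] (bits D')) with hs3
  have h4 := copyOver_spec Own.Y Own.X (by decide) s3 (bits D') (bits D)
    (by rw [bits_length_ps, bits_length_ps, hD, hD'len]) (blank_notMem_bits_ps D')
    (lend_notMem_bits_ps D') (by simp [hs3]) (by simp [hs3, hs2])
  rw [bits_length_ps, hD'len] at h4
  set s4 := Function.update s3 Own.X (Z [] (bits D')) with hs4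
  have h5 := erase_spec Own.Y s4 [] (bits D') (by simp [hs4, hs3]) (by simp)
    (lend_notMem_bits_ps D') (blank_notMem_bits_ps D')
  rw [bits_length_ps, hD'len] at h5
  have e1 : Function.update s4 Own.Y (Z [] []) = Function.update s Own.X (Z [] (bits D')) := by
    funext i
    by_cases hiY : i = Own.Y
    · subst hiY; simp [hY]
    · by_cases hiX : i = Own.X
      · subst hiX; simp [hs4]
      · simp [hs4, hs3, hs2, hs1, Function.update_of_ne hiY, Function.update_of_ne hiX]
  rw [e1] at h5
  have h6 := seqs_cons h1 (seqs_cons h2 (seqs_cons h3 (seqs_cons h4 (seqs_cons h5 (seqs_nil _)))))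
  rw [← hD']
  refine Prog.SRuns.mono h6 ?_
  have hround : 2 ^ l * (23 * 2 ^ σ + 31) + 40 + 3 ≤ 60 * w := by
    rw [hw]
    have h7 : 1 ≤ 2 ^ l * 2 ^ σ := Nat.mul_pos hl0 hσ0
    have h8 : 2 ^ l ≤ 2 ^ l * 2 ^ σ := Nat.le_mul_of_pos_right _ hσ0
    nlinarith
  have hloop : q * (2 ^ l * (23 * 2 ^ σ + 31) + 40 + 3) ≤ 60 * 2 ^ T := by
    calc q * (2 ^ l * (23 * 2 ^ σ + 31) + 40 + 3) ≤ q * (60 * w) := Nat.mul_le_mul_left q hround
      _ = 60 * (q * w) := by ring
      _ = 60 * 2 ^ T := by rw [hqw]
  simp only [cPass, List.length_nil]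
  omega

end Vale.Agent.P338.TM
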