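import Vale.Agent.P338.Duel.Defs2
import Vale.Agent.P338.TM.TimingR

/-!
Running time of the second machine: pure arithmetic on the cost functions.
-/

namespace Vale.Agent.P338.TM

open Vale.Agent.P338

/-- An operation takes at least linear time. -/
theorem cOpStep_ge (tA : ℕ → ℕ) (σ lo up κ2 : ℕ) (h : σ + lo + up ≤ κ2) :
    8 * 2 ^ κ2 + 5000 ≤ cOpStep tA σ lo up (2 ^ (κ2 - σ - lo - up)) := by
  have e1 : κ2 - σ - lo - up = κ2 - (σ + lo + up) := by omega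
  have hNe : (parOf σ lo up).N * (parOf σ lo up).e = 2 ^ (σ + lo + up) := by
    unfold Par.N parOf
    simp only [pow_add]
    ring
  have h4 : 2 ^ (κ2 - (σ + lo + up)) * 2 ^ (σ + lo + up) = 2 ^ κ2 := by
    rw [← pow_add, Nat.sub_add_cancel h]
  unfold cOpStep cFatOp cSetPar
  rw [e1, hNe, h4]
  generalize 2 ^ lo * 2 ^ up * 2 ^ up = x1
  generalize 2 ^ σ = x2
  generalize 2 ^ (σ + 5 - lo - up) = x3
  generalize 2 ^ κ2 = x4
  generalize 2 ^ (κ2 - (σ + lo + up)) * _ = x5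
  omega

theorem cDuel_le_opStep (tA : ℕ → ℕ) (κ2 : ℕ) (op : Op) (ho : OkOp κ2 op) :
    cDuel tA κ2 op ≤ 24 * cOpStep tA op.1 op.2.1 op.2.2 (2 ^ (κ2 - op.1 - op.2.1 - op.2.2)) := by
  have h1 := cOpStep_ge tA op.1 op.2.1 op.2.2 κ2 ho.2
  unfold cDuel
  have h2 := Nat.min_le_left (cOpStep tA op.1 op.2.1 op.2.2 (2 ^ (κ2 - op.1 - op.2.1 - op.2.2)))
    (cClass op.2.2 κ2)
  omega

theorem cInterpD_le_cInterp (tA : ℕ → ℕ) (κ2 : ℕ) (l : List Op) (hl : ∀ op ∈ l, OkOp κ2 op) :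
    cInterpD tA κ2 l ≤ 24 * cInterp tA κ2 l := by
  unfold cInterpD cInterp
  have key : (l.map fun op => cDuel tA κ2 op + 10 * (op.1 + op.2.1 + op.2.2) + 60).sum
      ≤ 24 * (l.map fun op => cOpStep tA op.1 op.2.1 op.2.2 (2 ^ (κ2 - op.1 - op.2.1 - op.2.2))
        + 10 * (op.1 + op.2.1 + op.2.2) + 60).sum := by
    induction l with
    | nil => simp
    | cons op l ih =>
      have h1 := cDuel_le_opStep tA κ2 op (hl op (by simp))
      have h2 := ih (fun o ho => hl o (by simp [ho]))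
      simp only [List.map_cons, List.sum_cons]
      omega
  omega

theorem cMainD_le_cMainQ (tA : ℕ → ℕ) (n : ℕ) : cMainD tA n ≤ 24 * cMainQ tA n := by
  have h := cInterpD_le_cInterp tA (2 * clog n) (sched (clog n)) (sched_ok' (clog n))
  unfold cMainD cMainQ
  omega

/-- Upper bounds are transferred. -/
theorem cMainD_isLittleO (tA : ℕ → ℕ)
    (h : (fun n : ℕ => (tA n : ℝ)) =o[Filter.atTop] (fun n : ℕ => (n : ℝ) * Real.log n)) :
    (fun n : ℕ => (cMainD tA n : ℝ)) =o[Filter.atTop]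
      (fun n : ℕ => (n : ℝ) ^ 2 * Real.log n) := by
  refine Asymptotics.IsBigO.trans_isLittleO ?_ (cMainQ_isLittleO tA h)
  apply Asymptotics.IsBigO.of_bound 24
  filter_upwards with n
  rw [Real.norm_of_nonneg (Nat.cast_nonneg _), Real.norm_of_nonneg (Nat.cast_nonneg _)]
  exact_mod_cast cMainD_le_cMainQ tA n

theorem min_le_sqrt_mul (x y : ℝ) (hx : 0 ≤ x) (hy : 0 ≤ y) : min x y ≤ Real.sqrt (x * y) := by
  apply Real.le_sqrt_of_sq_le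
  rcases le_total x y with h | h
  · rw [min_eq_left h]
    nlinarith
  · rw [min_eq_right h]
    nlinarith

/-- One summand of the cost of the second interpreter. -/
theorem cDuel_term_le (C1 : ℕ) (tA : ℕ → ℕ) (κ : ℕ)
    (hC : ∀ (σ lo up q : ℕ), lo + up ≤ σ + 2 →
      cOpStep tA σ lo up q ≤ C1 * ((q + 1) * 2 ^ (σ + lo + up)) + 12 * (q * tA (nA (σ, lo, up))))
    (W : ℝ) (hW : 0 ≤ W) (op : Op) (ho : OkOp (2 * κ) op)
    (h : (tA (nA op) : ℝ) ≤ W * (2 : ℝ) ^ jj op) :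
    ((cDuel tA (2 * κ) op + 10 * (op.1 + op.2.1 + op.2.2) + 60 : ℕ) : ℝ)
      ≤ (4 : ℝ) ^ κ * (1180 + 10 * Real.sqrt (1300 * (2 * (C1 : ℝ) + 12 * W))
          * Real.sqrt ((jj op : ℝ) + 8)) := by
  obtain ⟨σ, lo, up⟩ := op
  obtain ⟨h1, h2⟩ := ho
  simp only at h1 h2
  simp only [jj] at h ⊢
  have e1 : 2 * κ - σ - lo - up = 2 * κ - (σ + lo + up) := by omega
  have h3 := hC σ lo up (2 ^ (2 * κ - (σ + lo + up))) h1
  have h4 : 2 ^ (2 * κ - (σ + lo + up)) * 2 ^ (σ + lo + up) = 4 ^ κ := by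
    rw [← pow_add, Nat.sub_add_cancel h2, pow_mul]
    norm_num
  have h4R : (2 : ℝ) ^ (2 * κ - (σ + lo + up)) * (2 : ℝ) ^ (σ + lo + up) = (4 : ℝ) ^ κ := by
    exact_mod_cast h4
  have h5 : 2 ^ (σ + lo + up) ≤ 4 ^ κ := by
    calc 2 ^ (σ + lo + up) ≤ 2 ^ (2 * κ) := Nat.pow_le_pow_right (by norm_num) h2
      _ = 4 ^ κ := by rw [pow_mul]; norm_num
  have h5R : (2 : ℝ) ^ (σ + lo + up) ≤ (4 : ℝ) ^ κ := by exact_mod_cast h5
  have h4pos : (0 : ℝ) < (4 : ℝ) ^ κ := by positivity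
  have h41 : (1 : ℝ) ≤ (4 : ℝ) ^ κ := one_le_pow₀ (by norm_num)
  have hC0 : (0 : ℝ) ≤ (C1 : ℝ) := Nat.cast_nonneg _
  set j : ℕ := σ + lo + up with hj
  have hjn : (0 : ℝ) ≤ (j : ℝ) := Nat.cast_nonneg _
  -- the multiplier based implementation
  have hx : ((cOpStep tA σ lo up (2 ^ (2 * κ - j)) : ℕ) : ℝ)
      ≤ (4 : ℝ) ^ κ * (2 * (C1 : ℝ) + 12 * W) := by
    have h3R : ((cOpStep tA σ lo up (2 ^ (2 * κ - j)) : ℕ) : ℝ)
        ≤ (C1 : ℝ) * (((2 : ℝ) ^ (2 * κ - j) + 1) * (2 : ℝ) ^ j)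
          + 12 * ((2 : ℝ) ^ (2 * κ - j) * (tA (nA (σ, lo, up)) : ℝ)) := by
      exact_mod_cast h3
    have h6 : (2 : ℝ) ^ (2 * κ - j) * (tA (nA (σ, lo, up)) : ℝ) ≤ (4 : ℝ) ^ κ * W := by
      calc (2 : ℝ) ^ (2 * κ - j) * (tA (nA (σ, lo, up)) : ℝ)
          ≤ (2 : ℝ) ^ (2 * κ - j) * (W * (2 : ℝ) ^ j) := by gcongr
        _ = ((2 : ℝ) ^ (2 * κ - j) * (2 : ℝ) ^ j) * W := by ring
        _ = (4 : ℝ) ^ κ * W := by rw [h4R]
    have h7 : ((2 : ℝ) ^ (2 * κ - j) + 1) * (2 : ℝ) ^ j ≤ 2 * (4 : ℝ) ^ κ := by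
      calc ((2 : ℝ) ^ (2 * κ - j) + 1) * (2 : ℝ) ^ j
          = (2 : ℝ) ^ (2 * κ - j) * (2 : ℝ) ^ j + (2 : ℝ) ^ j := by ring
        _ ≤ (4 : ℝ) ^ κ + (4 : ℝ) ^ κ := by rw [h4R]; linarith
        _ = 2 * (4 : ℝ) ^ κ := by ring
    calc ((cOpStep tA σ lo up (2 ^ (2 * κ - j)) : ℕ) : ℝ)
        ≤ (C1 : ℝ) * (2 * (4 : ℝ) ^ κ) + 12 * ((4 : ℝ) ^ κ * W) := by
          refine le_trans h3R ?_
          gcongr
      _ = (4 : ℝ) ^ κ * (2 * (C1 : ℝ) + 12 * W) := by ring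
  -- the classical implementation
  have hy : ((cClass up (2 * κ) : ℕ) : ℝ) ≤ (4 : ℝ) ^ κ * (1300 * ((j : ℝ) + 8)) := by
    have h8 : ((2 : ℝ) ^ (2 * κ)) = (4 : ℝ) ^ κ := by
      rw [pow_mul]; norm_num
    have hup : (up : ℝ) ≤ (j : ℝ) := by
      have : up ≤ j := by omega
      exact_mod_cast this
    unfold cClass
    push_cast
    rw [h8]
    nlinarith
  have hmin : ((min (cOpStep tA σ lo up (2 ^ (2 * κ - j))) (cClass up (2 * κ)) : ℕ) : ℝ)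
      ≤ (4 : ℝ) ^ κ * (Real.sqrt (1300 * (2 * (C1 : ℝ) + 12 * W)) * Real.sqrt ((j : ℝ) + 8)) := by
    rw [Nat.cast_min]
    have hX0 : 0 ≤ 2 * (C1 : ℝ) + 12 * W := by positivity
    calc min ((cOpStep tA σ lo up (2 ^ (2 * κ - j)) : ℕ) : ℝ) ((cClass up (2 * κ) : ℕ) : ℝ)
        ≤ min ((4 : ℝ) ^ κ * (2 * (C1 : ℝ) + 12 * W)) ((4 : ℝ) ^ κ * (1300 * ((j : ℝ) + 8))) :=
          min_le_min hx hy
      _ ≤ Real.sqrt (((4 : ℝ) ^ κ * (2 * (C1 : ℝ) + 12 * W))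
            * ((4 : ℝ) ^ κ * (1300 * ((j : ℝ) + 8)))) :=
          min_le_sqrt_mul _ _ (by positivity) (by positivity)
      _ = Real.sqrt (((4 : ℝ) ^ κ) ^ 2 * ((1300 * (2 * (C1 : ℝ) + 12 * W)) * ((j : ℝ) + 8))) := by
          congr 1; ring
      _ = (4 : ℝ) ^ κ * (Real.sqrt (1300 * (2 * (C1 : ℝ) + 12 * W)) * Real.sqrt ((j : ℝ) + 8)) := by
          rw [Real.sqrt_mul (by positivity), Real.sqrt_sq h4pos.le,
            Real.sqrt_mul (by positivity)]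
  have hκ : ((κ : ℝ) + 1) ≤ (4 : ℝ) ^ κ := by exact_mod_cast succ_le_four_pow κ
  have hj2 : (j : ℝ) ≤ 2 * (κ : ℝ) := by exact_mod_cast h2
  have h8 : ((2 : ℝ) ^ (2 * κ)) = (4 : ℝ) ^ κ := by
    rw [pow_mul]; norm_num
  unfold cDuel
  simp only
  rw [e1]
  have hcast : ((100 * 2 ^ (2 * κ)
      + 10 * min (cOpStep tA σ lo up (2 ^ (2 * κ - j))) (cClass up (2 * κ)) + 1000
      + 10 * j + 60 : ℕ) : ℝ)
      = 100 * (4 : ℝ) ^ κ
        + 10 * ((min (cOpStep tA σ lo up (2 ^ (2 * κ - j))) (cClass up (2 * κ)) : ℕ) : ℝ) + 1000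
        + 10 * (j : ℝ) + 60 := by
    push_cast
    rw [h8]
  rw [hcast]
  nlinarith

/-- Sum of a list of reals bounded termwise. -/
theorem sum_le_affine_sum (l : List Op) (F G : Op → ℝ) (a b : ℝ)
    (h : ∀ op ∈ l, F op ≤ a + b * G op) :
    (l.map F).sum ≤ a * (l.length : ℝ) + b * (l.map G).sum := by
  induction l with
  | nil => simp
  | cons op l ih =>
      have h1 := h op (by simp)
      have h2 := ih (fun o ho => h o (by simp [ho]))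
      simp only [List.map_cons, List.sum_cons, List.length_cons, Nat.cast_add, Nat.cast_one]
      linarith

/-- If the multiplier needs at most `W 2^j` steps in the operations on blocks of `2^j` bits, then
the second machine transposes a `2^κ × 2^κ` matrix in `O(4^κ (log κ + sqrt ((1 + W) κ)))` steps. -/
theorem cMainD_le_of_lin : ∃ C : ℝ, 0 ≤ C ∧ ∀ (tA : ℕ → ℕ) (κ : ℕ) (W : ℝ), 0 ≤ W →
    (∀ op ∈ sched κ, (tA (nA op) : ℝ) ≤ W * (2 : ℝ) ^ jj op) →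
    (cMainD tA (2 ^ κ) : ℝ)
      ≤ (4 : ℝ) ^ κ * (7302 * (7 * (Nat.log 2 κ : ℝ) + 9)
          + 1400 * Real.sqrt (1300 * (C + 12 * W)) * Real.sqrt (κ : ℝ)) := by
  obtain ⟨C1, hC1⟩ := cOpStep_le
  refine ⟨2 * (C1 : ℝ), by positivity, fun tA κ W hW h => ?_⟩
  set S : ℝ := Real.sqrt (1300 * (2 * (C1 : ℝ) + 12 * W)) with hS
  have hS0 : 0 ≤ S := Real.sqrt_nonneg _
  have hcl : clog (2 ^ κ) = κ := by
    unfold clog
    exact Nat.clog_pow 2 κ (by norm_num)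
  have h4pos : (0 : ℝ) < (4 : ℝ) ^ κ := by positivity
  have h41 : (1 : ℝ) ≤ (4 : ℝ) ^ κ := one_le_pow₀ (by norm_num)
  have hsum : ((((sched κ).map fun op => cDuel tA (2 * κ) op
        + 10 * (op.1 + op.2.1 + op.2.2) + 60).sum : ℕ) : ℝ)
      ≤ ((4 : ℝ) ^ κ * 1180) * ((sched κ).length : ℝ)
        + ((4 : ℝ) ^ κ * (10 * S)) * ((sched κ).map fun op => Real.sqrt ((jj op : ℝ) + 8)).sum := by
    have := sum_le_affine_sum (sched κ)
      (fun op => ((cDuel tA (2 * κ) op + 10 * (op.1 + op.2.1 + op.2.2) + 60 : ℕ) : ℝ))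
      (fun op => Real.sqrt ((jj op : ℝ) + 8)) ((4 : ℝ) ^ κ * 1180) ((4 : ℝ) ^ κ * (10 * S)) (by
        intro op hop
        have h1 := cDuel_term_le C1 tA κ (hC1 tA) W hW op (sched_ok' κ op hop) (h op hop)
        calc ((cDuel tA (2 * κ) op + 10 * (op.1 + op.2.1 + op.2.2) + 60 : ℕ) : ℝ)
            ≤ (4 : ℝ) ^ κ * (1180 + 10 * S * Real.sqrt ((jj op : ℝ) + 8)) := h1
          _ = (4 : ℝ) ^ κ * 1180 + (4 : ℝ) ^ κ * (10 * S) * Real.sqrt ((jj op : ℝ) + 8) := by ring)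
    refine le_trans (le_of_eq ?_) this
    rw [Nat.cast_list_sum, List.map_map]
    rfl
  have hlen : ((sched κ).length : ℝ) ≤ 7 * (Nat.log 2 κ : ℝ) + 8 := by
    exact_mod_cast sched_length_le κ
  have hsq := sched_sqrt_sum κ
  have hκ : ((κ : ℝ) + 1) ≤ (4 : ℝ) ^ κ := by exact_mod_cast succ_le_four_pow κ
  have hL0 : (0 : ℝ) ≤ (Nat.log 2 κ : ℝ) := Nat.cast_nonneg _
  have hmain : (cMainD tA (2 ^ κ) : ℝ)
      = ((((sched κ).map fun op => cDuel tA (2 * κ) op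
        + 10 * (op.1 + op.2.1 + op.2.2) + 60).sum : ℕ) : ℝ) + 2 + 300 * (4 : ℝ) ^ κ
        + 5000 * ((κ : ℝ) + 1) + 2000 := by
    unfold cMainD cInterpD
    rw [hcl, two_pow_mul_self]
    push_cast
    ring
  rw [hmain]
  calc ((((sched κ).map fun op => cDuel tA (2 * κ) op
        + 10 * (op.1 + op.2.1 + op.2.2) + 60).sum : ℕ) : ℝ) + 2 + 300 * (4 : ℝ) ^ κ
        + 5000 * ((κ : ℝ) + 1) + 2000
      ≤ (((4 : ℝ) ^ κ * 1180) * (7 * (Nat.log 2 κ : ℝ) + 8)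
        + ((4 : ℝ) ^ κ * (10 * S)) * (140 * Real.sqrt (κ : ℝ))) + 2 * (4 : ℝ) ^ κ
        + 300 * (4 : ℝ) ^ κ + 5000 * (4 : ℝ) ^ κ + 2000 * (4 : ℝ) ^ κ := by
          have h1 : ((4 : ℝ) ^ κ * 1180) * ((sched κ).length : ℝ)
              ≤ ((4 : ℝ) ^ κ * 1180) * (7 * (Nat.log 2 κ : ℝ) + 8) := by gcongr
          have h2 : ((4 : ℝ) ^ κ * (10 * S))
                * ((sched κ).map fun op => Real.sqrt ((jj op : ℝ) + 8)).sum
              ≤ ((4 : ℝ) ^ κ * (10 * S)) * (140 * Real.sqrt (κ : ℝ)) := by gcongr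
          linarith
    _ ≤ (4 : ℝ) ^ κ * (7302 * (7 * (Nat.log 2 κ : ℝ) + 9) + 1400 * S * Real.sqrt (κ : ℝ)) := by
          have : 0 ≤ (4 : ℝ) ^ κ * (Nat.log 2 κ : ℝ) := by positivity
          nlinarith

/-- If the second machine is slow on all large matrices, then in every schedule there is an
operation in which the multiplier is slow. -/
theorem exists_slow_opD (tA tB : ℕ → ℕ) (hB : ∀ κ : ℕ, tB (2 ^ κ) ≤ cMainD tA (2 ^ κ))
    (c : ℝ) (hc : 0 < c) (N : ℕ)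
    (hN : ∀ n : ℕ, N ≤ n → c * ((n : ℝ) ^ 2 * Real.log n) ≤ (tB n : ℝ)) :
    ∃ δ : ℝ, 0 < δ ∧ ∃ κ0 : ℕ, 1 ≤ κ0 ∧ ∀ κ : ℕ, κ0 ≤ κ → ∃ op ∈ sched κ,
      δ * (κ : ℝ) * (2 : ℝ) ^ jj op < (tA (nA op) : ℝ) := by
  obtain ⟨C, hC0, hC⟩ := cMainD_le_of_lin
  have hl2 : 0 < Real.log 2 := Real.log_pos (by norm_num)
  set s : ℝ := c * Real.log 2 / 5600 with hs
  have hs0 : 0 < s := by positivity
  set δ : ℝ := s ^ 2 / 31200 with hδ
  have hδ0 : 0 < δ := by positivity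
  obtain ⟨κ1, hκ1⟩ := Filter.eventually_atTop.mp
    (eventually_log_small 7302 (c * Real.log 2 / 4) (by positivity))
  obtain ⟨κ2, hκ2⟩ := exists_nat_ge (C / (12 * δ))
  refine ⟨δ, hδ0, max (max (max κ1 κ2) N) 1, le_max_right _ _, fun κ hκ => ?_⟩
  have hk1 : κ1 ≤ κ :=
    le_trans (le_trans (le_trans (le_max_left _ _) (le_max_left _ _)) (le_max_left _ _)) hκ
  have hk2 : κ2 ≤ κ :=
    le_trans (le_trans (le_trans (le_max_right _ _) (le_max_left _ _)) (le_max_left _ _)) hκ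
  have hkN : N ≤ κ := le_trans (le_trans (le_max_right _ _) (le_max_left _ _)) hκ
  have hk0 : 1 ≤ κ := le_trans (le_max_right _ _) hκ
  by_contra hcon
  have hκR : (1 : ℝ) ≤ (κ : ℝ) := by exact_mod_cast hk0
  have hall : ∀ op ∈ sched κ, (tA (nA op) : ℝ) ≤ (δ * (κ : ℝ)) * (2 : ℝ) ^ jj op := by
    intro op hop
    by_contra hlt
    exact hcon ⟨op, hop, not_le.mp hlt⟩
  have h1 := hC tA κ (δ * (κ : ℝ)) (by positivity) hall
  have h2 := hN (2 ^ κ) (le_trans hkN Nat.lt_two_pow_self.le)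
  have h3 : (tB (2 ^ κ) : ℝ) ≤ (cMainD tA (2 ^ κ) : ℝ) := by exact_mod_cast hB κ
  have h4 := hκ1 κ hk1
  have hCk : C ≤ 12 * δ * (κ : ℝ) := by
    have h5 : C / (12 * δ) ≤ (κ : ℝ) := le_trans hκ2 (by exact_mod_cast hk2)
    rw [div_le_iff₀ (by positivity)] at h5
    linarith
  have hss : Real.sqrt (κ : ℝ) * Real.sqrt (κ : ℝ) = (κ : ℝ) := Real.mul_self_sqrt (by linarith)
  have hsq : Real.sqrt (1300 * (C + 12 * (δ * (κ : ℝ)))) ≤ s * Real.sqrt (κ : ℝ) := by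
    calc Real.sqrt (1300 * (C + 12 * (δ * (κ : ℝ)))) ≤ Real.sqrt (s ^ 2 * (κ : ℝ)) := by
          apply Real.sqrt_le_sqrt
          have : s ^ 2 = 31200 * δ := by rw [hδ]; ring
          rw [this]
          nlinarith
      _ = s * Real.sqrt (κ : ℝ) := by
          rw [Real.sqrt_mul (by positivity), Real.sqrt_sq hs0.le]
  have h5 : (((2 ^ κ : ℕ) : ℝ)) ^ 2 = (4 : ℝ) ^ κ := by
    push_cast
    rw [← pow_mul, mul_comm, pow_mul]
    norm_num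
  have h6 : Real.log ((2 ^ κ : ℕ) : ℝ) = (κ : ℝ) * Real.log 2 := by
    push_cast
    exact Real.log_pow _ _
  rw [h5, h6] at h2
  have h4pos : (0 : ℝ) < (4 : ℝ) ^ κ := by positivity
  have hsk0 : 0 ≤ Real.sqrt (κ : ℝ) := Real.sqrt_nonneg _
  have h7 : 1400 * Real.sqrt (1300 * (C + 12 * (δ * (κ : ℝ)))) * Real.sqrt (κ : ℝ)
      ≤ c * Real.log 2 / 4 * (κ : ℝ) := by
    calc 1400 * Real.sqrt (1300 * (C + 12 * (δ * (κ : ℝ)))) * Real.sqrt (κ : ℝ)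
        ≤ 1400 * (s * Real.sqrt (κ : ℝ)) * Real.sqrt (κ : ℝ) := by gcongr
      _ = 1400 * s * (Real.sqrt (κ : ℝ) * Real.sqrt (κ : ℝ)) := by ring
      _ = c * Real.log 2 / 4 * (κ : ℝ) := by rw [hss, hs]; ring
  have h8 : c * ((4 : ℝ) ^ κ * ((κ : ℝ) * Real.log 2))
      ≤ (4 : ℝ) ^ κ * (c * Real.log 2 / 4 * (κ : ℝ) + c * Real.log 2 / 4 * (κ : ℝ)) := by
    calc c * ((4 : ℝ) ^ κ * ((κ : ℝ) * Real.log 2)) ≤ (cMainD tA (2 ^ κ) : ℝ) := by linarith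
      _ ≤ _ := h1
      _ ≤ (4 : ℝ) ^ κ * (c * Real.log 2 / 4 * (κ : ℝ) + c * Real.log 2 / 4 * (κ : ℝ)) := by
          gcongr
  have h9 : 0 < (4 : ℝ) ^ κ * (c * Real.log 2 * (κ : ℝ)) := by positivity
  nlinarith

/-- If the second machine is slow on all large matrices, then below every large `n` there is a
length `n'` at which the multiplier needs at least `c' n' log n` steps. -/
theorem hard_sizesD (tA tB : ℕ → ℕ) (hB : ∀ κ : ℕ, tB (2 ^ κ) ≤ cMainD tA (2 ^ κ))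
    (c : ℝ) (hc : 0 < c) (N : ℕ)
    (hN : ∀ n : ℕ, N ≤ n → c * ((n : ℝ) ^ 2 * Real.log n) ≤ (tB n : ℝ)) :
    ∃ c' : ℝ, 0 < c' ∧ ∃ N' : ℕ, ∀ n : ℕ, N' ≤ n → ∃ n' : ℕ, 2 ≤ n' ∧ n' ≤ n ∧
      c' * ((n' : ℝ) * Real.log n) ≤ (tA n' : ℝ) := by
  obtain ⟨δ, hδ0, κ0, hκ01, hκ0⟩ := exists_slow_opD tA tB hB c hc N hN
  refine ⟨δ / 8320, by positivity, 520 * 4 ^ κ0, fun n hn => ?_⟩
  set κ := Nat.log 4 (n / 520) with hκ
  have hq : 4 ^ κ0 ≤ n / 520 := by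
    rw [Nat.le_div_iff_mul_le (by norm_num)]
    omega
  have hq0 : n / 520 ≠ 0 := by
    have : 1 ≤ 4 ^ κ0 := Nat.one_le_pow _ _ (by norm_num)
    omega
  have hk : κ0 ≤ κ := (Nat.le_log_iff_pow_le (by norm_num) hq0).mpr hq
  have hlo : 4 ^ κ ≤ n / 520 := Nat.pow_log_le_self 4 hq0
  have hhi : n / 520 < 4 ^ (κ + 1) := Nat.lt_pow_succ_log_self (by norm_num) _
  have hlo' : 520 * 4 ^ κ ≤ n := by
    rw [Nat.le_div_iff_mul_le (by norm_num)] at hlo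
    omega
  have hhi' : n < 520 * 4 ^ (κ + 1) := by
    rw [Nat.div_lt_iff_lt_mul (by norm_num)] at hhi
    omega
  obtain ⟨op, hop, hslow⟩ := hκ0 κ hk
  have hj := sched_jj_le κ op hop
  have hpow : 2 ^ jj op ≤ 4 ^ κ := by
    calc 2 ^ jj op ≤ 2 ^ (2 * κ) := Nat.pow_le_pow_right (by norm_num) hj
      _ = 4 ^ κ := by rw [pow_mul]; norm_num
  have hnle : nA op ≤ n := by
    have := nA_le op
    omega
  refine ⟨nA op, two_le_nA op, hnle, ?_⟩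
  have hκ1 : (1 : ℝ) ≤ (κ : ℝ) := by exact_mod_cast le_trans hκ01 hk
  have hle : ((nA op : ℕ) : ℝ) ≤ 520 * 2 ^ jj op := by exact_mod_cast nA_le op
  have hnR : (1 : ℝ) ≤ (n : ℝ) := by
    have : 1 ≤ n := le_trans (nA_pos op) hnle
    exact_mod_cast this
  have hlogn0 : 0 ≤ Real.log (n : ℝ) := Real.log_nonneg hnR
  have hlogn : Real.log (n : ℝ) ≤ 16 * (κ : ℝ) := by
    have h1 : (n : ℝ) ≤ 520 * 4 ^ (κ + 1) := by exact_mod_cast hhi'.le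
    have hl4 : Real.log 4 ≤ 2 := by
      have h2 : Real.log 4 = 2 * Real.log 2 := by
        rw [show (4 : ℝ) = 2 ^ 2 by norm_num, Real.log_pow]
        norm_num
      have := Real.log_two_lt_d9
      linarith
    calc Real.log (n : ℝ) ≤ Real.log (520 * 4 ^ (κ + 1)) := Real.log_le_log (by linarith) h1
      _ = Real.log 520 + ((κ + 1 : ℕ) : ℝ) * Real.log 4 := by
          rw [Real.log_mul (by norm_num) (by positivity), Real.log_pow]
      _ ≤ 7 + ((κ + 1 : ℕ) : ℝ) * 2 := by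
          have := log_520_le
          gcongr
      _ ≤ 16 * (κ : ℝ) := by push_cast; linarith
  calc δ / 8320 * (((nA op : ℕ) : ℝ) * Real.log (n : ℝ))
      ≤ δ / 8320 * ((520 * 2 ^ jj op) * (16 * (κ : ℝ))) := by gcongr
    _ = δ * (κ : ℝ) * (2 : ℝ) ^ jj op := by ring
    _ ≤ (tA (nA op) : ℝ) := hslow.le

/-- Every time bound `M` of the multiplier with `M(n)/n` nondecreasing is then of order at least
`n log n`. -/
theorem regular_boundD (tA : ℕ → ℕ) (c' : ℝ) (N' : ℕ)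
    (hard : ∀ n : ℕ, N' ≤ n → ∃ n' : ℕ, 2 ≤ n' ∧ n' ≤ n ∧
      c' * ((n' : ℝ) * Real.log n) ≤ (tA n' : ℝ))
    (M : ℕ → ℝ) (hM : ∀ n : ℕ, (tA n : ℝ) ≤ M n)
    (hmono : ∀ m n : ℕ, 1 ≤ m → m ≤ n → M m / (m : ℝ) ≤ M n / (n : ℝ))
    (n : ℕ) (hn : N' ≤ n) : c' * ((n : ℝ) * Real.log n) ≤ M n := by
  obtain ⟨n', h2, hle, hslow⟩ := hard n hn
  have hn'R : (2 : ℝ) ≤ (n' : ℝ) := by exact_mod_cast h2
  have hnn : (n' : ℝ) ≤ (n : ℝ) := by exact_mod_cast hle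
  have hnpos : (0 : ℝ) < (n : ℝ) := by linarith
  have h3 : c' * Real.log n ≤ M n / (n : ℝ) := by
    have h4 : c' * Real.log n ≤ M n' / (n' : ℝ) := by
      rw [le_div_iff₀ (by linarith)]
      calc c' * Real.log n * (n' : ℝ) = c' * ((n' : ℝ) * Real.log n) := by ring
        _ ≤ M n' := le_trans hslow (hM n')
    exact le_trans h4 (hmono n' n (by omega) hle)
  rw [le_div_iff₀ hnpos] at h3
  calc c' * ((n : ℝ) * Real.log n) = c' * Real.log n * (n : ℝ) := by ring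
    _ ≤ M n := h3

end Vale.Agent.P338.TM
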