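import Vale.Agent.P338.Duel.Defs2
import Vale.Agent.P338.TM.Timing3

/-!
Running time of the second machine: one operation.  Pure arithmetic.
From `cOpStep_le` (see also `cInterp_term_le` in TM/Timing3):
`cOpStep .. ≤ 2 * C1 * 4^κ + 12 * (2^(2κ - jj op) * tA (nA op))`; `cClass up (2κ) ≤ 1300 * (jj op + 1) * 4^κ`;
`min (a + b) c ≤ a + min b c`, `min (12 * b) (1300 * c) ≤ 1300 * min b c`.
-/

namespace Vale.Agent.P338.TM

open Vale.Agent.P338

theorem cDuel_le : ∃ C : ℕ, ∀ (tA : ℕ → ℕ) (κ : ℕ) (op : Op), OkOp (2 * κ) op →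
    cDuel tA (2 * κ) op + 10 * (op.1 + op.2.1 + op.2.2) + 60
      ≤ C * 4 ^ κ + C * min (2 ^ (2 * κ - jj op) * tA (nA op)) ((jj op + 1) * 4 ^ κ) := by
  obtain ⟨C1, hC1⟩ := cOpStep_le
  refine ⟨20 * C1 + 13000, fun tA κ op ho => ?_⟩
  have h1 := cInterp_term_le C1 tA κ (hC1 tA) op ho
  have hP : 2 ^ (2 * κ) = 4 ^ κ := by rw [pow_mul]; norm_num
  have h2 := succ_le_four_pow κ
  have hjj : op.1 + op.2.1 + op.2.2 = jj op := rfl
  have hle : jj op ≤ 2 * κ := ho.2
  have hup : op.2.2 ≤ jj op := by rw [← hjj]; omega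
  unfold cDuel cClass
  rw [hP, hjj]
  rw [hjj] at h1
  generalize cOpStep tA op.1 op.2.1 op.2.2 (2 ^ (2 * κ - op.1 - op.2.1 - op.2.2)) = S at *
  generalize 2 ^ (2 * κ - jj op) * tA (nA op) = B at *
  generalize jj op = j at *
  generalize op.2.2 = up at *
  generalize 4 ^ κ = P at *
  have h3 : (up + 1) * P ≤ (j + 1) * P := Nat.mul_le_mul_right _ (by omega)
  have h4 : P ≤ (j + 1) * P := Nat.le_mul_of_pos_left _ (by omega)
  generalize (up + 1) * P = Q1 at *
  generalize (j + 1) * P = Q at *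
  have e1 : (20 * C1 + 13000) * P = 20 * (C1 * P) + 13000 * P := by ring
  have e2 : (2 * C1 + 80) * P = 2 * (C1 * P) + 80 * P := by ring
  rw [e1, Nat.add_mul]
  rw [e2] at h1
  generalize C1 * P = R at *
  have h5 : 0 ≤ 20 * C1 * min B Q := Nat.zero_le _
  generalize 20 * C1 * min B Q = Z at *
  rcases le_total B Q with hBQ | hBQ
  · rw [min_eq_left hBQ]
    have : min S (300 * Q1 + 1000) ≤ S := min_le_left _ _
    omega
  · rw [min_eq_right hBQ]
    have : min S (300 * Q1 + 1000) ≤ 300 * Q1 + 1000 := min_le_right _ _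
    omega

end Vale.Agent.P338.TM
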